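import Vale.Agent.Lib.P219.K.Ex.Hat

/-! # P219: the fields of `OKl2` in terms of the scaled values -/

set_option linter.unusedSimpArgs false

namespace Vale.Agent.Lib.P219.Ex

open Vale.Agent.Lib.P219.Bern Lin

noncomputable section

/-- scaled values of a point -/
def hv (v : Pw) (l τ : ℝ) : Hv ℝ := ⟨v.w ^ 2, τ, 1 - v.w ^ 2, l * v.a, l * v.q, l * v.dq, l * v.ddq,
  l * v.dddq, l * v.Y, l * v.dY, l * v.ddY, l * v.dddY⟩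

section
variable (v : Pw) (l τ : ℝ)

theorem r_gA13 : gA13 RR (hv v l τ) = 2 * l * (v.A1 + 2 * v.KA) := by
  simp only [hP, gA13, gAA, hi1, hi1p, gR, gU, hi4, hi4V, hi5U, hC, hi5V, hth, gE, gD2, gD, hF,
    hddP, hdP, gddN, gdN, gN, gddGB, gddKB, gddB1, gddKA, gddA1, gwxx, gdGB, gdKB, gdB1, gdKA,
    gdA1, gwx, gGB, gKB, gB1, gKA, gt2, gA1, gddde, gdde, gde, ge, Sb, Im, RR, hv, Int.cast_ofNat,
    Int.cast_neg, Int.cast_one, Pv.A1, Pv.KA, Pv.B1, Pv.KB, Pv.GB, Pv.A0, Pv.P, Pv.dP, Pw.ddP,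
    Pv.Fw, Pw.dFw, Pv.dA1, Pv.dKA, Pv.dB1, Pv.dKB, Pv.dGB, Pw.ddA1, Pw.ddKA, Pw.ddB1, Pw.ddKB,
    Pw.ddGB]
  ring
theorem r_gAA : gAA RR (hv v l τ) = 2 * l * v.A0 := by
  simp only [hP, gA13, gAA, hi1, hi1p, gR, gU, hi4, hi4V, hi5U, hC, hi5V, hth, gE, gD2, gD, hF,
    hddP, hdP, gddN, gdN, gN, gddGB, gddKB, gddB1, gddKA, gddA1, gwxx, gdGB, gdKB, gdB1, gdKA,
    gdA1, gwx, gGB, gKB, gB1, gKA, gt2, gA1, gddde, gdde, gde, ge, Sb, Im, RR, hv, Int.cast_ofNat,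
    Int.cast_neg, Int.cast_one, Pv.A1, Pv.KA, Pv.B1, Pv.KB, Pv.GB, Pv.A0, Pv.P, Pv.dP, Pw.ddP,
    Pv.Fw, Pw.dFw, Pv.dA1, Pv.dKA, Pv.dB1, Pv.dKB, Pv.dGB, Pw.ddA1, Pw.ddKA, Pw.ddB1, Pw.ddKB,
    Pw.ddGB]
  ring
theorem r_gU : gU RR (hv v l τ) = 2 * l * (v.KA - v.A1) := by
  simp only [hP, gA13, gAA, hi1, hi1p, gR, gU, hi4, hi4V, hi5U, hC, hi5V, hth, gE, gD2, gD, hF,
    hddP, hdP, gddN, gdN, gN, gddGB, gddKB, gddB1, gddKA, gddA1, gwxx, gdGB, gdKB, gdB1, gdKA,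
    gdA1, gwx, gGB, gKB, gB1, gKA, gt2, gA1, gddde, gdde, gde, ge, Sb, Im, RR, hv, Int.cast_ofNat,
    Int.cast_neg, Int.cast_one, Pv.A1, Pv.KA, Pv.B1, Pv.KB, Pv.GB, Pv.A0, Pv.P, Pv.dP, Pw.ddP,
    Pv.Fw, Pw.dFw, Pv.dA1, Pv.dKA, Pv.dB1, Pv.dKB, Pv.dGB, Pw.ddA1, Pw.ddKA, Pw.ddB1, Pw.ddKB,
    Pw.ddGB]
  ring
theorem r_gR : gR RR (hv v l τ) = 2 * l * (v.KA - v.A1 + v.KB - v.B1 - v.GB) := by
  simp only [hP, gA13, gAA, hi1, hi1p, gR, gU, hi4, hi4V, hi5U, hC, hi5V, hth, gE, gD2, gD, hF,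
    hddP, hdP, gddN, gdN, gN, gddGB, gddKB, gddB1, gddKA, gddA1, gwxx, gdGB, gdKB, gdB1, gdKA,
    gdA1, gwx, gGB, gKB, gB1, gKA, gt2, gA1, gddde, gdde, gde, ge, Sb, Im, RR, hv, Int.cast_ofNat,
    Int.cast_neg, Int.cast_one, Pv.A1, Pv.KA, Pv.B1, Pv.KB, Pv.GB, Pv.A0, Pv.P, Pv.dP, Pw.ddP,
    Pv.Fw, Pw.dFw, Pv.dA1, Pv.dKA, Pv.dB1, Pv.dKB, Pv.dGB, Pw.ddA1, Pw.ddKA, Pw.ddB1, Pw.ddKB,
    Pw.ddGB]
  ring

variable {v l τ}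

theorem r_hP (hy : v.y ^ 2 * τ = 1 - v.w ^ 2) : hP RR (hv v l τ) = 4 * τ * l * v.P := by
  have : hP RR (hv v l τ) = τ * (2 * (2 * l * v.A0) + 2 * l * v.B1 + 4 * l * v.KB + 2 * l * v.GB)
      + (1 - v.w ^ 2) * (l * (2 * v.B1 - 2 * v.KB - 6 * (v.q - v.Y) + 2 * v.GB)) := by
    simp only [hP, gA13, gAA, hi1, hi1p, gR, gU, hi4, hi4V, hi5U, hC, hi5V, hth, gE, gD2, gD, hF,
      hddP, hdP, gddN, gdN, gN, gddGB, gddKB, gddB1, gddKA, gddA1, gwxx, gdGB, gdKB, gdB1, gdKA,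
      gdA1, gwx, gGB, gKB, gB1, gKA, gt2, gA1, gddde, gdde, gde, ge, Sb, Im, RR, hv, Int.cast_ofNat,
      Int.cast_neg, Int.cast_one, Pv.A1, Pv.KA, Pv.B1, Pv.KB, Pv.GB, Pv.A0, Pv.P, Pv.dP, Pw.ddP,
      Pv.Fw, Pw.dFw, Pv.dA1, Pv.dKA, Pv.dB1, Pv.dKB, Pv.dGB, Pw.ddA1, Pw.ddKA, Pw.ddB1, Pw.ddKB,
      Pw.ddGB]
    ring
  rw [this, ← hy, Pv.P, Pv.A0]
  ring

theorem r_hdP (hy : v.y ^ 2 * τ = 1 - v.w ^ 2) : hdP RR (hv v l τ) = 4 * τ * l * v.dP := by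
  have : hdP RR (hv v l τ) = τ * (4 * l * (v.dA1 + 2 * v.dKA) + 2 * l * v.dB1 + 4 * l * v.dKB
        + 2 * l * v.dGB)
      + (1 - v.w ^ 2) * (l * (2 * v.dB1 - 2 * v.dKB - 6 * (v.dq - v.dY) + 2 * v.dGB))
      + v.w ^ 2 * (1 - v.w ^ 2) * (l * (2 * v.B1 - 2 * v.KB - 6 * (v.q - v.Y) + 2 * v.GB)) := by
    simp only [hP, gA13, gAA, hi1, hi1p, gR, gU, hi4, hi4V, hi5U, hC, hi5V, hth, gE, gD2, gD, hF,
      hddP, hdP, gddN, gdN, gN, gddGB, gddKB, gddB1, gddKA, gddA1, gwxx, gdGB, gdKB, gdB1, gdKA,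
      gdA1, gwx, gGB, gKB, gB1, gKA, gt2, gA1, gddde, gdde, gde, ge, Sb, Im, RR, hv, Int.cast_ofNat,
      Int.cast_neg, Int.cast_one, Pv.A1, Pv.KA, Pv.B1, Pv.KB, Pv.GB, Pv.A0, Pv.P, Pv.dP, Pw.ddP,
      Pv.Fw, Pw.dFw, Pv.dA1, Pv.dKA, Pv.dB1, Pv.dKB, Pv.dGB, Pw.ddA1, Pw.ddKA, Pw.ddB1, Pw.ddKB,
      Pw.ddGB]
    ring
  rw [this, ← hy, Pv.dP]
  ring

theorem r_hddP (hy : v.y ^ 2 * τ = 1 - v.w ^ 2) : hddP RR (hv v l τ) = 4 * τ * l * v.ddP := by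
  have : hddP RR (hv v l τ) = τ * (4 * l * (v.ddA1 + 2 * v.ddKA) + 2 * l * v.ddB1 + 4 * l * v.ddKB
        + 2 * l * v.ddGB)
      + (1 - v.w ^ 2) * (l * (2 * v.ddB1 - 2 * v.ddKB - 6 * (v.ddq - v.ddY) + 2 * v.ddGB))
      + v.w ^ 2 * (1 - v.w ^ 2) * (2 * (l * (2 * v.dB1 - 2 * v.dKB - 6 * (v.dq - v.dY)
        + 2 * v.dGB)) + (2 * v.w ^ 2 - 1)
          * (l * (2 * v.B1 - 2 * v.KB - 6 * (v.q - v.Y) + 2 * v.GB))) := by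
    simp only [hP, gA13, gAA, hi1, hi1p, gR, gU, hi4, hi4V, hi5U, hC, hi5V, hth, gE, gD2, gD, hF,
      hddP, hdP, gddN, gdN, gN, gddGB, gddKB, gddB1, gddKA, gddA1, gwxx, gdGB, gdKB, gdB1, gdKA,
      gdA1, gwx, gGB, gKB, gB1, gKA, gt2, gA1, gddde, gdde, gde, ge, Sb, Im, RR, hv, Int.cast_ofNat,
      Int.cast_neg, Int.cast_one, Pv.A1, Pv.KA, Pv.B1, Pv.KB, Pv.GB, Pv.A0, Pv.P, Pv.dP, Pw.ddP,
      Pv.Fw, Pw.dFw, Pv.dA1, Pv.dKA, Pv.dB1, Pv.dKB, Pv.dGB, Pw.ddA1, Pw.ddKA, Pw.ddB1, Pw.ddKB,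
      Pw.ddGB]
    ring
  rw [this, ← hy, Pw.ddP]
  ring

theorem r_hF (hy : v.y ^ 2 * τ = 1 - v.w ^ 2) : hF RR (hv v l τ) = 4 * τ * l * v.Fw := by
  have : hF RR (hv v l τ) = hdP RR (hv v l τ) + (3 - 2 * v.w ^ 2) * hP RR (hv v l τ) := by
    simp only [hF, Im, RR, hv, Int.cast_ofNat, Int.cast_neg]
    ring
  rw [this, r_hdP hy, r_hP hy, Pv.Fw]
  ring

theorem r_hi1 (hy : v.y ^ 2 * τ = 1 - v.w ^ 2) :
    hi1 RR (hv v l τ) = 4 * τ * l * (v.dFw + 4 * (1 - v.w ^ 2) * v.Fw) := by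
  have : hi1 RR (hv v l τ) = hddP RR (hv v l τ) + (7 - 6 * v.w ^ 2) * hdP RR (hv v l τ)
      + (1 - v.w ^ 2) * (12 - 6 * v.w ^ 2) * hP RR (hv v l τ) := by
    simp only [hi1, Im, RR, hv, Int.cast_ofNat, Int.cast_neg]
    ring
  rw [this, r_hddP hy, r_hdP hy, r_hP hy, Pw.dFw, Pv.Fw]
  ring

theorem r_hi1p (hy : v.y ^ 2 * τ = 1 - v.w ^ 2) :
    hi1p RR (hv v l τ) = 4 * τ * l * (v.dP + 2 * (1 - v.w ^ 2) * v.P) := by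
  have : hi1p RR (hv v l τ) = hdP RR (hv v l τ) + 2 * (1 - v.w ^ 2) * hP RR (hv v l τ) := by
    simp only [hi1p, Im, RR, hv, Int.cast_ofNat]
    ring
  rw [this, r_hdP hy, r_hP hy]
  ring

theorem r_hi4 (hy : v.y ^ 2 * τ = 1 - v.w ^ 2) :
    hi4 RR (hv v l τ) = 16 * τ * l * (v.Fw + v.w ^ 2 * (v.Rr / 2)
      - 3 / 4 * (v.w ^ 2 * (v.A0 - v.Pi / 2))) := by
  have : hi4 RR (hv v l τ) = 4 * hF RR (hv v l τ) + 4 * (v.w ^ 2 * (1 - v.w ^ 2)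
      * gR RR (hv v l τ)) - 6 * (v.w ^ 2 * τ * gAA RR (hv v l τ))
      + 3 * (v.w ^ 2 * (1 - v.w ^ 2) * gU RR (hv v l τ)) := by
    simp only [hi4, gwx, Im, RR, hv, Int.cast_ofNat, Int.cast_neg]
    ring
  rw [this, r_hF hy, r_gR, r_gAA, r_gU, Pv.Rr, Pv.Pi, ← hy]
  ring

theorem r_hi4V (_hyp : v.y ≠ 0) :
    v.y * hi4V RR (hv v l τ) = 16 * τ * l * (3 / 4 * (v.w ^ 2 * (v.A0 - v.Pi / 2))
      - 3 / 4 * (v.w ^ 2 * (v.A0 - v.Pi * (1 + v.y) / (2 * v.y)))) := by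
  have : hi4V RR (hv v l τ) = 3 * (v.w ^ 2 * τ * gU RR (hv v l τ)) := by
    simp only [hi4V, Im, RR, hv, Int.cast_ofNat]
  rw [this, r_gU, Pv.Pi]
  field_simp
  ring

theorem r_glo (U V : ℝ) : glo RR (hv v l τ) U V
    = ((1 - v.w ^ 2) + τ) * U + 2 * (1 - v.w ^ 2) * V := by
  simp only [glo, Im, RR, hv, Int.cast_ofNat]
  ring
theorem r_ghi (U V : ℝ) : ghi RR (hv v l τ) U V
    = 2 * τ * U + (τ + (1 - v.w ^ 2)) * V := by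
  simp only [ghi, Im, RR, hv, Int.cast_ofNat]
  ring

theorem r_hi5 (hτ : 0 < τ) (hl : 0 < l) (hyp : 0 < v.y) (hy : v.y ^ 2 * τ = 1 - v.w ^ 2)
    (hE : 0 < (3 * τ + (1 - v.w ^ 2)) ^ 2 - 16 * (1 - v.w ^ 2) ^ 3) :
    hi5U RR (hv v l τ) + v.y * hC RR (hv v l τ)
      = 4 * τ * l * ((3 * τ + (1 - v.w ^ 2)) ^ 2 - 16 * (1 - v.w ^ 2) ^ 3)
        * (3 * τ + (1 - v.w ^ 2)) ^ 2
        * (3 / 4 * (1 + v.y) * (v.D + v.y ^ 2)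
    * (v.P / (v.D ^ 2 - (1 - v.w ^ 2) * v.y ^ 4) + v.Rr / (2 * v.D ^ 2)) - (v.A0 - v.Pi / 2)) := by
  have h1 : hC RR (hv v l τ) = 3 * τ * (3 * τ + 5 * (1 - v.w ^ 2)) * (hP RR (hv v l τ)
      * (3 * τ + (1 - v.w ^ 2)) ^ 2 + (1 - v.w ^ 2) * gR RR (hv v l τ)
        * ((3 * τ + (1 - v.w ^ 2)) ^ 2 - 16 * (1 - v.w ^ 2) ^ 3)) := by
    simp only [hC, gE, gD2, gD, Im, RR, hv, Int.cast_ofNat, Int.cast_neg]
    ring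
  have h2 : hi5U RR (hv v l τ) = hC RR (hv v l τ) - (2 * (τ * gAA RR (hv v l τ))
      - (1 - v.w ^ 2) * gU RR (hv v l τ))
        * ((3 * τ + (1 - v.w ^ 2)) ^ 2 - 16 * (1 - v.w ^ 2) ^ 3)
        * (3 * τ + (1 - v.w ^ 2)) ^ 2 := by
    simp only [hi5U, hth, Sb, gE, gD2, gD, Im, RR, hv, Int.cast_ofNat, Int.cast_neg, Int.cast_one]
    ring
  rw [h2, h1, r_hP hy, r_gR, r_gAA, r_gU, Pv.Rr, Pv.Pi]
  have hD : v.D = (3 * τ + (1 - v.w ^ 2)) / (4 * τ) := by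
    rw [Pv.D, ← hy]; field_simp
  have hD4 : v.D ^ 2 - (1 - v.w ^ 2) * v.y ^ 4
      = ((3 * τ + (1 - v.w ^ 2)) ^ 2 - 16 * (1 - v.w ^ 2) ^ 3) / (16 * τ ^ 2) := by
    rw [hD]
    have : v.y ^ 4 = (1 - v.w ^ 2) ^ 2 / τ ^ 2 := by rw [← hy]; field_simp
    rw [this]; field_simp; ring
  have hX : 0 < 3 * τ + (1 - v.w ^ 2) := by rw [← hy]; positivity
  have hDy : v.D + v.y ^ 2 = (3 * τ + 5 * (1 - v.w ^ 2)) / (4 * τ) := by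
    rw [hD, ← hy]; field_simp; ring
  rw [hDy, hD4, hD]
  have hy2 : v.y ^ 2 = (1 - v.w ^ 2) / τ := by rw [← hy]; field_simp
  rw [hy2]
  generalize hEe : (3 * τ + (1 - v.w ^ 2)) ^ 2 - 16 * (1 - v.w ^ 2) ^ 3 = E at *
  generalize hδ : 3 * τ + (1 - v.w ^ 2) = δ at *
  field_simp
  ring

theorem r_hi5V (_hyp : 0 < v.y) : v.y * hi5V RR (hv v l τ) = v.y * hC RR (hv v l τ)
      + 4 * τ * l * ((3 * τ + (1 - v.w ^ 2)) ^ 2 - 16 * (1 - v.w ^ 2) ^ 3)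
        * (3 * τ + (1 - v.w ^ 2)) ^ 2
        * ((v.A0 - v.Pi / 2) - (v.A0 - v.Pi * (1 + v.y) / (2 * v.y))) := by
  have h1 : hi5V RR (hv v l τ) = hC RR (hv v l τ) + τ * gU RR (hv v l τ)
      * (((3 * τ + (1 - v.w ^ 2)) ^ 2 - 16 * (1 - v.w ^ 2) ^ 3)
        * (3 * τ + (1 - v.w ^ 2)) ^ 2) := by
    simp only [hi5V, gE, gD2, gD, Im, RR, hv, Int.cast_ofNat, Int.cast_neg]
    ring
  rw [h1, r_gU, Pv.Pi]
  field_simp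
  ring

theorem okl2_core {τ l T d : ℝ} {v : Pw} (hτ : 0 < τ) (hl : 0 < l) (hyp : 0 < v.y)
    (hX : 0 < 1 - v.w ^ 2) (hX1 : 1 - v.w ^ 2 < 1) (hXτ : 1 - v.w ^ 2 ≤ τ) (ha : 0 < v.a)
    (hy : v.y ^ 2 * τ = 1 - v.w ^ 2)
    (hst : v.w ^ 2 * v.P + v.db + (3 - 5 / 2 * v.w ^ 2) * v.b = d / 8 * v.w ^ 6 / T ^ 2)
    (k1 : 0 ≤ gA13 RR (hv v l τ)) (k2 : 0 ≤ hP RR (hv v l τ)) (k3 : 0 ≤ hi1 RR (hv v l τ))
    (k4 : 0 ≤ hi1p RR (hv v l τ)) (k5 : 0 ≤ gR RR (hv v l τ)) (k6 : 0 ≤ gAA RR (hv v l τ))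
    (k7 : 0 ≤ 2 * τ * gAA RR (hv v l τ) + (τ + (1 - v.w ^ 2)) * -gU RR (hv v l τ))
    (k8 : 0 ≤ hi4 RR (hv v l τ))
    (k9 : 0 ≤ 2 * τ * hi4 RR (hv v l τ) + (τ + (1 - v.w ^ 2)) * hi4V RR (hv v l τ))
    (k10 : 0 ≤ hC RR (hv v l τ))
    (k11 : 0 ≤ (1 - v.w ^ 2 + τ) * hi5U RR (hv v l τ)
      + 2 * (1 - v.w ^ 2) * hC RR (hv v l τ))
    (k12 : 0 ≤ hi5V RR (hv v l τ))
    (k13 : 0 ≤ (1 - v.w ^ 2 + τ) * hi5U RR (hv v l τ)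
      + 2 * (1 - v.w ^ 2) * hi5V RR (hv v l τ)) : v.OKl2 d T := by
  have y7 := yelim_hi hτ hyp hy k6 k7
  have y9 := yelim_hi hτ hyp hy k8 k9
  have y11 := yelim_lo hτ hX hyp hy k10 k11
  have y13 := yelim_lo hτ hX hyp hy k12 k13
  rw [r_gA13] at k1
  rw [r_hP hy] at k2
  rw [r_hi1 hy] at k3
  rw [r_hi1p hy] at k4
  rw [r_gR] at k5
  have hE : 0 < (3 * τ + (1 - v.w ^ 2)) ^ 2 - 16 * (1 - v.w ^ 2) ^ 3 := by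
    have h2 : (4 * (1 - v.w ^ 2)) ^ 2 ≤ (3 * τ + (1 - v.w ^ 2)) ^ 2 := by
      apply pow_le_pow_left₀ (by positivity); linarith
    have h3 : (1 - v.w ^ 2) ^ 3 < (1 - v.w ^ 2) ^ 2 := by
      calc (1 - v.w ^ 2) ^ 3 = (1 - v.w ^ 2) ^ 2 * (1 - v.w ^ 2) := by ring
        _ < (1 - v.w ^ 2) ^ 2 * 1 := by
          apply mul_lt_mul_of_pos_left hX1 (by positivity)
        _ = (1 - v.w ^ 2) ^ 2 := by ring
    have h4 : (4 * (1 - v.w ^ 2)) ^ 2 = 16 * (1 - v.w ^ 2) ^ 2 := by ring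
    linarith
  have hδ : 0 < 3 * τ + (1 - v.w ^ 2) := by positivity
  refine ⟨hst, ?_, ?_, ?_, ?_, ?_, ?_, ?_, ?_, ?_, ?_⟩
  · exact nonneg_of_mul_nonneg_right k2 (by positivity)
  · have h1 : 0 ≤ v.A1 + 2 * v.KA := nonneg_of_mul_nonneg_right k1 (by positivity)
    unfold Pv.A0
    linarith
  · exact nonneg_of_mul_nonneg_right k3 (by positivity)
  · exact nonneg_of_mul_nonneg_right k4 (by positivity)
  · have h1 := nonneg_of_mul_nonneg_right k5 (by positivity)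
    unfold Pv.Rr
    positivity
  · rw [r_gAA, r_gU] at y7
    have h1 : 0 ≤ (2 * l * v.y) * (v.y * v.A0 - v.Pi) := by
      have : (2 * l * v.y) * (v.y * v.A0 - v.Pi)
          = v.y ^ 2 * (2 * l * v.A0 + v.y * -(2 * l * (v.KA - v.A1))) := by
        rw [Pv.Pi]
        ring
      rw [this]
      exact mul_nonneg (by positivity) y7
    have h2 := nonneg_of_mul_nonneg_right h1 (by positivity)
    linarith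
  · rw [r_hi4 hy] at k8
    have := nonneg_of_mul_nonneg_right k8 (by positivity)
    linarith
  · rw [r_hi4 hy, r_hi4V hyp.ne', ← mul_add] at y9
    have := nonneg_of_mul_nonneg_right y9 (by positivity)
    linarith
  · rw [r_hi5 hτ hl hyp hy hE] at y11
    have := nonneg_of_mul_nonneg_right y11 (by positivity)
    linarith
  · rw [r_hi5V hyp, ← add_assoc, r_hi5 hτ hl hyp hy hE, ← mul_add] at y13
    have := nonneg_of_mul_nonneg_right y13 (by positivity)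
    linarith

end

end

end Vale.Agent.Lib.P219.Ex
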