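import Vale.Agent.Lib.P219.K.Ex.Lchk
import Vale.Agent.Lib.P219.K.Ex.Lreal

/-! # P219: the conditions for `y ≤ 1` hold for the explicit family -/

namespace Vale.Agent.Lib.P219.Ex

open Vale.Agent.Lib.P219.Bern Lin

noncomputable section

/-- the point of the explicit family -/
def pt (s w y : ℝ) : Pv := ⟨w, y, fa s, fq s w, fdq s w, fddq s w, fY s w, fdY s w, fddY s w⟩
def pt3 (s w y : ℝ) : Pw := ⟨pt s w y, fdddq s w, fdddY s w⟩

/-- the scaling factor -/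
def lam (s w : ℝ) : ℝ := 8 * (s + w) ^ 9 * (1 + w) * (1 - s ^ 2)

theorem lam_pos {s w : ℝ} (hs : 0 < s) (hs1 : s < 1) (hw : 0 < w) : 0 < lam s w := by
  have : 0 < 1 - s ^ 2 := by nlinarith
  unfold lam
  positivity

theorem map_vv {s w : ℝ} (hs : 0 < s) (hs1 : s < 1) (hw : 0 < w) (y : ℝ) :
    vv.map (ev2 w s) = hv (pt3 s w y) (lam s w) (1 - s ^ 2) := by
  have hσ : s + w ≠ 0 := by positivity
  have hυ : 1 + w ≠ 0 := by positivity
  have hτ : (1 : ℝ) - s ^ 2 ≠ 0 := by nlinarith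
  simp only [vv, Hv.map, hv, pt3, pt, lam, ev_pW2, ev_pT, ev_pX, ev_ht9, ev_ht, ev_nks, fa, fq, fdq,
    fddq, fdddq, fY, fdY, fddY, fdddY, fr]
  push_cast
  congr 1 <;> field_simp <;> ring

theorem e_glo {w s : ℝ} (v : Hv P2) (U V : P2) :
    ev2 w s (glo R2 v U V) = (ev2 w s v.x + ev2 w s v.t) * ev2 w s U
      + 2 * ev2 w s v.x * ev2 w s V := by
  have h := isEv2 w s
  simp only [glo, Im, h.add, h.mul, h.ofI]
  push_cast
  ring

theorem e_ghi {w s : ℝ} (v : Hv P2) (U V : P2) :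
    ev2 w s (ghi R2 v U V) = 2 * ev2 w s v.t * ev2 w s U
      + (ev2 w s v.t + ev2 w s v.x) * ev2 w s V := by
  have h := isEv2 w s
  simp only [ghi, Im, h.add, h.mul, h.ofI]
  push_cast
  ring

theorem e_neg {w s : ℝ} (U : P2) : ev2 w s (lneg U) = - ev2 w s U := by
  have h := isEv2 w s
  simp only [lneg, Im, h.mul, h.ofI]
  push_cast
  ring

theorem okl2 {w y s T : ℝ} (hw : 0 < w) (hw1 : w < 1) (hs : 0 < s) (hs1 : s < 1) (hy : 0 < y)
    (hy1 : y ≤ 1) (hyX : y ^ 2 * (1 - s ^ 2) = 1 - w ^ 2) (hT : T ^ 2 = 1 - s ^ 2) :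
    (pt3 s w y).OKl2 (12 * fk1 s) T := by
  have hτ : (0 : ℝ) < 1 - s ^ 2 := by nlinarith
  have hX : (0 : ℝ) < 1 - w ^ 2 := by nlinarith
  have hXτ : 1 - w ^ 2 ≤ 1 - s ^ 2 := by
    rw [← hyX]
    have : y ^ 2 ≤ 1 := by nlinarith
    nlinarith
  have hsw : s ≤ w := by
    by_contra hc
    have hc : w < s := lt_of_not_ge hc
    nlinarith
  have hl := lam_pos hs hs1 hw
  have hm := map_vv hs hs1 hw y
  obtain ⟨e1, e2, e3, e4, e5, e6, e7, e8, e9, e10, e11, e12⟩ := homs (isEv2 w s) vv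
  rw [hm] at e1 e2 e3 e4 e5 e6 e7 e8 e9 e10 e11 e12
  have ex : ev2 w s vv.x = 1 - w ^ 2 := ev_pX w s
  have et : ev2 w s vv.t = 1 - s ^ 2 := ev_pT w s
  have L := fun {E : P2} (h : lchk E = true) => lchk_sound h hw hw1.le hs.le hsw
  have k7 := L lc7
  have k9 := L lc9
  have k11 := L lc11
  have k13 := L lc13
  rw [e_ghi, e_neg, et, ex, e3, e7] at k7
  rw [e_ghi, et, ex, e8, e9] at k9
  rw [e_glo, et, ex, e10, e11] at k11
  rw [e_glo, et, ex, e10, e12] at k13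
  have hst : (pt3 s w y).w ^ 2 * (pt3 s w y).P + (pt3 s w y).db
      + (3 - 5 / 2 * (pt3 s w y).w ^ 2) * (pt3 s w y).b
      = 12 * fk1 s / 8 * (pt3 s w y).w ^ 6 / T ^ 2 := by
    rw [hT]
    exact stat hw hs hs1 hyX
  have ha : 0 < (pt3 s w y).a := div_pos (fks_pos hs hs1) hτ
  exact okl2_core hτ hl hy hX (by change 1 - w ^ 2 < 1; have : 0 < w ^ 2 := by positivity
                                  linarith) hXτ ha hyX hst
    (e2 ▸ L lc1) (e1 ▸ L lc2) (e4 ▸ L lc3) (e5 ▸ L lc4) (e6 ▸ L lc5) (e3 ▸ L lc6) k7 (e8 ▸ L lc8) k9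
    (e11 ▸ L lc10) k11 (e12 ▸ L lc12) k13

end

end Vale.Agent.Lib.P219.Ex
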