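import Vale.Agent.Lib.P219.K.Ex.LchkS
import Vale.Agent.Lib.P219.K.Ex.Lt
import Vale.Agent.Lib.P219.K.Lin2.StrictDefs

/-! # P219: the strict conditions for `y ≤ 1` hold for the explicit family -/

namespace Vale.Agent.Lib.P219.Ex

open Vale.Agent.Lib.P219.Bern Lin

noncomputable section

/-- `U + y V > 0` from the lower bound for `y` -/
theorem yelim_lo' {U V y τ X : ℝ} (hτ : 0 < τ) (hX : 0 < X) (hy : 0 < y) (hyX : y ^ 2 * τ = X)
    (hV : 0 ≤ V) (h : 0 < (X + τ) * U + 2 * X * V) : 0 < U + y * V := by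
  have h1 : 2 * X ≤ y * (X + τ) := by
    have : y * (X + τ) - 2 * X = τ * y * (y - 1) ^ 2 := by rw [← hyX]; ring
    have h2 : 0 ≤ τ * y * (y - 1) ^ 2 := by positivity
    linarith
  have h3 : 0 < (X + τ) * (U + y * V) := by
    have h4 : 2 * X * V ≤ y * (X + τ) * V := mul_le_mul_of_nonneg_right h1 hV
    calc (0 : ℝ) < (X + τ) * U + 2 * X * V := h
      _ ≤ (X + τ) * U + y * (X + τ) * V := by linarith
      _ = (X + τ) * (U + y * V) := by ring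
  exact pos_of_mul_pos_right h3 (by linarith)

/-- `U + y V > 0` from the upper bound for `y` -/
theorem yelim_hi' {U V y τ X : ℝ} (hτ : 0 < τ) (hy : 0 < y) (hyX : y ^ 2 * τ = X)
    (hU : 0 < U) (h : 0 < 2 * τ * U + (τ + X) * V) : 0 < U + y * V := by
  rcases le_or_gt 0 V with hV | hV
  · positivity
  have h1 : 2 * τ * y ≤ τ + X := by
    have : τ + X - 2 * τ * y = τ * (y - 1) ^ 2 := by rw [← hyX]; ring
    have h2 : 0 ≤ τ * (y - 1) ^ 2 := by positivity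
    linarith
  have h3 : 0 < 2 * τ * (U + y * V) := by
    have h4 : (τ + X) * V ≤ 2 * τ * y * V := mul_le_mul_of_nonpos_right h1 hV.le
    calc (0 : ℝ) < 2 * τ * U + (τ + X) * V := h
      _ ≤ 2 * τ * U + 2 * τ * y * V := by linarith
      _ = 2 * τ * (U + y * V) := by ring
  exact pos_of_mul_pos_right h3 (by linarith)

theorem okls_core {τ l : ℝ} {v : Pw} (hτ : 0 < τ) (hl : 0 < l) (hyp : 0 < v.y)
    (hX : 0 < 1 - v.w ^ 2) (hX1 : 1 - v.w ^ 2 < 1) (hXτ : 1 - v.w ^ 2 ≤ τ)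
    (hy : v.y ^ 2 * τ = 1 - v.w ^ 2)
    (k5 : 0 < gR RR (hv v l τ)) (k8 : 0 < hi4 RR (hv v l τ))
    (k9 : 0 < 2 * τ * hi4 RR (hv v l τ) + (τ + (1 - v.w ^ 2)) * hi4V RR (hv v l τ))
    (k10 : 0 ≤ hC RR (hv v l τ))
    (k11 : 0 < (1 - v.w ^ 2 + τ) * hi5U RR (hv v l τ)
      + 2 * (1 - v.w ^ 2) * hC RR (hv v l τ))
    (k12 : 0 ≤ hi5V RR (hv v l τ))
    (k13 : 0 < (1 - v.w ^ 2 + τ) * hi5U RR (hv v l τ)
      + 2 * (1 - v.w ^ 2) * hi5V RR (hv v l τ)) : v.OKls := by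
  have y9 := yelim_hi' hτ hyp hy k8 k9
  have y11 := yelim_lo' hτ hX hyp hy k10 k11
  have y13 := yelim_lo' hτ hX hyp hy k12 k13
  rw [r_gR] at k5
  have hE : 0 < (3 * τ + (1 - v.w ^ 2)) ^ 2 - 16 * (1 - v.w ^ 2) ^ 3 := by
    have h2 : (4 * (1 - v.w ^ 2)) ^ 2 ≤ (3 * τ + (1 - v.w ^ 2)) ^ 2 := by
      apply pow_le_pow_left₀ (by positivity); linarith
    have h3 : (1 - v.w ^ 2) ^ 3 < (1 - v.w ^ 2) ^ 2 := by
      calc (1 - v.w ^ 2) ^ 3 = (1 - v.w ^ 2) ^ 2 * (1 - v.w ^ 2) := by ring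
        _ < (1 - v.w ^ 2) ^ 2 * 1 := by
          apply mul_lt_mul_of_pos_left hX1 (by positivity)
        _ = (1 - v.w ^ 2) ^ 2 := by ring
    have h4 : (4 * (1 - v.w ^ 2)) ^ 2 = 16 * (1 - v.w ^ 2) ^ 2 := by ring
    linarith
  have hδ : 0 < 3 * τ + (1 - v.w ^ 2) := by positivity
  refine ⟨?_, ?_, ?_, ?_, ?_⟩
  · have h1 := pos_of_mul_pos_right k5 (by positivity)
    unfold Pv.Rr
    positivity
  · rw [r_hi4 hy] at k8
    have := pos_of_mul_pos_right k8 (by positivity)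
    linarith
  · rw [r_hi4 hy, r_hi4V hyp.ne', ← mul_add] at y9
    have := pos_of_mul_pos_right y9 (by positivity)
    linarith
  · rw [r_hi5 hτ hl hyp hy hE] at y11
    have := pos_of_mul_pos_right y11 (by positivity)
    linarith
  · rw [r_hi5V hyp, ← add_assoc, r_hi5 hτ hl hyp hy hE, ← mul_add] at y13
    have := pos_of_mul_pos_right y13 (by positivity)
    linarith

theorem okls {w y s : ℝ} (hw : 0 < w) (hw1 : w < 1) (hs : 0 < s) (hs1 : s < 1) (hy : 0 < y)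
    (hy1 : y ≤ 1) (hyX : y ^ 2 * (1 - s ^ 2) = 1 - w ^ 2) : (pt s w y).OKls := by
  have hτ : (0 : ℝ) < 1 - s ^ 2 := by nlinarith
  have hX : (0 : ℝ) < 1 - w ^ 2 := by nlinarith
  have hXτ : 1 - w ^ 2 ≤ 1 - s ^ 2 := by
    rw [← hyX]
    have : y ^ 2 ≤ 1 := by nlinarith
    nlinarith
  have hsw : s ≤ w := by
    by_contra hc
    have hc : w < s := lt_of_not_ge hc
    nlinarith
  have hl := lam_pos hs hs1 hw
  have hm := map_vv hs hs1 hw y
  obtain ⟨e1, e2, e3, e4, e5, e6, e7, e8, e9, e10, e11, e12⟩ := homs (isEv2 w s) vv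
  rw [hm] at e1 e2 e3 e4 e5 e6 e7 e8 e9 e10 e11 e12
  have ex : ev2 w s vv.x = 1 - w ^ 2 := ev_pX w s
  have et : ev2 w s vv.t = 1 - s ^ 2 := ev_pT w s
  have L := fun {E : P2} (h : lchk E = true) => lchk_sound h hw hw1.le hs.le hsw
  have k9 := lchk_pos ld9 hw hw1 hs hsw
  have k11 := lchk_pos ld11 hw hw1 hs hsw
  have k13 := lchk_pos ld13 hw hw1 hs hsw
  rw [e_ghi, et, ex, e8, e9] at k9
  rw [e_glo, et, ex, e10, e11] at k11
  rw [e_glo, et, ex, e10, e12] at k13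
  exact okls_core (v := pt3 s w y) hτ hl hy hX
    (by change 1 - w ^ 2 < 1; have : 0 < w ^ 2 := by positivity
        linarith) hXτ hyX
    (e6 ▸ lchk_pos ld5 hw hw1 hs hsw) (e8 ▸ lchk_pos ld8 hw hw1 hs hsw) k9
    (e11 ▸ L lc10) k11 (e12 ▸ L lc12) k13

end

end Vale.Agent.Lib.P219.Ex
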