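import Vale.Agent.Lib.P219.K.Ex.Fun

/-! # P219: the explicit family satisfies the stationarity identity -/

namespace Vale.Agent.Lib.P219.Ex

open Vale.Agent.Lib.P219.Bern

noncomputable section

section gen
variable {α : Type}

/-- `x - y` -/
def Sb (R : Rg α) (x y : α) : α := R.add x (R.mul (R.ofI (-1)) y)
/-- `k x` -/
def Im (R : Rg α) (k : ℤ) (x : α) : α := R.mul (R.ofI k) x

/-- `4 τ P` -/
def gP4 (R : Rg α) (w2 τ X a q dq Y dY : α) : α :=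
  let e := Sb R q Y
  let de := Sb R dq dY
  let A1 := R.add (R.mul w2 e) (Im R 2 de)
  let t := Sb R (R.ofI 2) w2
  let KA := R.mul t e
  let B1 := Im R 2 dY
  let KB := R.mul t Y
  let GB := R.mul w2 Y
  let AA := R.add (Im R 2 a) (R.add A1 (Im R 2 KA))
  R.add (R.mul τ (R.add (Im R 2 AA) (R.add B1 (R.add (Im R 2 KB) GB))))
    (R.mul X (R.add (Sb R B1 KB) (R.add (Im R (-6) e) GB)))

/-- `2 τ b` -/
def gb (R : Rg α) (w2 τ X a q dq : α) : α :=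
  R.add (Im R 2 (R.mul τ a)) (R.add (R.mul (Sb R τ X) (R.add (R.mul w2 q) (Im R 2 dq)))
    (R.add (R.mul (R.mul (Sb R (R.ofI 2) w2) q) (R.add (Im R 2 τ) X)) (Im R (-6) (R.mul X q))))

/-- `2 τ db` -/
def gdb (R : Rg α) (w2 τ X q dq ddq : α) : α :=
  R.add (Im R (-1) (R.mul (R.mul w2 X) (R.add (R.mul w2 q) (Im R 2 dq))))
  (R.add (R.mul (Sb R τ X) (R.add (Im R (-1) (R.mul (R.mul w2 X) q))
    (R.add (R.mul w2 dq) (Im R 2 ddq))))
  (R.add (R.mul (R.add (R.mul (R.mul w2 X) q) (R.mul (Sb R (R.ofI 2) w2) dq)) (R.add (Im R 2 τ) X))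
  (R.add (R.mul (R.mul (Sb R (R.ofI 2) w2) q) (R.mul w2 X))
  (R.add (Im R (-6) (R.mul (R.mul w2 X) q)) (Im R (-6) (R.mul X dq))))))

def gst (R : Rg α) (w2 τ X a q dq ddq Y dY : α) : α :=
  R.add (R.mul w2 (gP4 R w2 τ X a q dq Y dY)) (R.add (Im R 2 (gdb R w2 τ X q dq ddq))
    (R.mul (R.add (R.ofI 6) (Im R (-5) w2)) (gb R w2 τ X a q dq)))

variable {R : Rg α} {e : α → ℝ}

theorem ev_gst (h : IsEv R e) (w2 τ X a q dq ddq Y dY : α) :
    e (gst R w2 τ X a q dq ddq Y dY) =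
      e w2 * (e τ * (2 * (2 * e a + (e w2 * (e q - e Y) + 2 * (e dq - e dY))
        + 2 * ((2 - e w2) * (e q - e Y))) + 2 * e dY + 2 * ((2 - e w2) * e Y) + e w2 * e Y)
        + e X * (2 * e dY - (2 - e w2) * e Y - 6 * (e q - e Y) + e w2 * e Y))
      + 2 * (-(e w2 * e X) * (e w2 * e q + 2 * e dq)
        + (e τ - e X) * (-(e w2 * e X) * e q + e w2 * e dq + 2 * e ddq)
        + (e w2 * e X * e q + (2 - e w2) * e dq) * (2 * e τ + e X)
        + (2 - e w2) * e q * (e w2 * e X) - 6 * (e w2 * e X * e q) - 6 * (e X * e dq))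
      + (6 - 5 * e w2) * (2 * (e τ * e a) + (e τ - e X) * (e w2 * e q + 2 * e dq)
        + (2 - e w2) * e q * (2 * e τ + e X) - 6 * (e X * e q)) := by
  simp only [gst, gP4, gb, gdb, Sb, Im, h.add, h.mul, h.ofI]
  push_cast
  ring

end gen

/-- `w^2` -/
def pW2 : P2 := [[], [], [1]]
theorem ev_pW2 (w s : ℝ) : ev2 w s pW2 = w ^ 2 := by simp [ev2, ev1, pev, pW2]; ring

/-- `k * (s+w)^j * (1-s^2) * N` -/
def ht (k : ℤ) (j : ℕ) (N : P2) : P2 := R2.mul (R2.ofI k) (R2.mul (pw R2 pSW j) (R2.mul pT N))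

theorem ev_ht (k : ℤ) (j : ℕ) (N : P2) (w s : ℝ) :
    ev2 w s (ht k j N) = k * (s + w) ^ j * (1 - s ^ 2) * ev2 w s N := by
  have h := isEv2 w s
  rw [ht, h.mul, h.mul, h.mul, h.ofI, h.pw, ev_pSW, ev_pT]
  ring

/-- `4 (s+w)^8 (1+w) N` -/
def ht8 (N : P2) : P2 := R2.mul (R2.ofI 4) (R2.mul (pw R2 pSW 8) (R2.mul pU N))

theorem ev_ht8 (N : P2) (w s : ℝ) :
    ev2 w s (ht8 N) = 4 * (s + w) ^ 8 * (1 + w) * ev2 w s N := by
  have h := isEv2 w s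
  rw [ht8, h.mul, h.mul, h.mul, h.ofI, h.pw, ev_pSW, ev_pU]
  push_cast
  ring

def statP : P2 := sb2
  (gst R2 pW2 pT pX (ht8 nks) (ht 4 3 nq0) (ht 2 2 nq1) (ht 1 1 nq2) (ht 4 2 nY0) (ht 2 1 nY1))
  (R2.mul (R2.ofI 6) (R2.mul (pw R2 pW 6) (R2.mul pT (ht8 nk1))))

theorem statP_zero : allz statP = true := by decide +kernel

/-- `nks` does not depend on `w` -/
theorem ev_nks (w s : ℝ) : ev2 w s nks = fks s := by
  simp [fks, ev2, pev, nks]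
theorem ev_nk1 (w s : ℝ) : ev2 w s nk1 = fk1 s := by
  simp [fk1, ev2, pev, nk1]

theorem stat {w y s : ℝ} (hw : 0 < w) (hs : 0 < s) (hs1 : s < 1)
    (hy : y ^ 2 * (1 - s ^ 2) = 1 - w ^ 2) :
    let v : Lin.Pv := ⟨w, y, fa s, fq s w, fdq s w, fddq s w, fY s w, fdY s w, fddY s w⟩
    v.w ^ 2 * v.P + v.db + (3 - 5 / 2 * v.w ^ 2) * v.b = 12 * fk1 s / 8 * v.w ^ 6 / (1 - s ^ 2) := by
  intro v
  have h0 := ev2_eq_of_allz statP_zero w s
  rw [ev_gst (isEv2 w s)] at h0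
  have h := isEv2 w s
  simp only [h.mul, h.ofI, h.pw, ev_pW2, ev_pT, ev_pX, ev_pW, ev_ht, ev_ht8, ev_nks, ev_nk1] at h0
  have hσ : s + w ≠ 0 := by positivity
  have hυ : 1 + w ≠ 0 := by positivity
  have hτ : (1 : ℝ) - s ^ 2 ≠ 0 := by nlinarith
  have hy2 : y ^ 2 = (1 - w ^ 2) / (1 - s ^ 2) := by field_simp; linarith
  simp only [v, Lin.Pv.P, Lin.Pv.db, Lin.Pv.b, Lin.Pv.A1, Lin.Pv.KA, Lin.Pv.B1, Lin.Pv.KB,
    Lin.Pv.GB, hy2, fa, fq, fdq, fddq, fY, fdY, fr]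
  generalize ev2 w s nq0 = Q0 at *
  generalize ev2 w s nq1 = Q1 at *
  generalize ev2 w s nq2 = Q2 at *
  generalize ev2 w s nY0 = Z0 at *
  generalize ev2 w s nY1 = Z1 at *
  generalize fks s = K at *
  generalize fk1 s = K1 at *
  push_cast at h0
  generalize hτe : (1 : ℝ) - s ^ 2 = τ at *
  generalize hσe : s + w = σ at *
  have hD : 16 * σ ^ 8 * (1 + w) * τ ^ 2 ≠ 0 := by positivity
  apply mul_left_cancel₀ hD
  rw [← sub_eq_zero] at h0 ⊢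
  rw [← h0]
  field_simp
  ring

end

end Vale.Agent.Lib.P219.Ex
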