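import Vale.Agent.Lib.P219.K.Ex.Ok2
import Vale.Agent.Lib.P219.K.Ex.Stat

/-! # P219: the conditions `OK2` for the explicit family, strict form -/

namespace Vale.Agent.Lib.P219.Ex

open Vale.Agent.Lib.P219.Bern Vale.Agent.Lib.P219.Lin

noncomputable section

theorem ok2s {w s y : ℝ} (hw : 0 < w) (hw1 : w < 1) (hs : 0 < s) (hs1 : s < 1) (hy : 0 < y)
    (h : y ^ 2 * (1 - s ^ 2) = 1 - w ^ 2) (ddq ddY : ℝ) :
    (Pv.mk w y (99 / 100 * fa s) (fq s w) (fdq s w) ddq (fY s w) (fdY s w) ddY).OK2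
      (fk1 s * s / 4 + fk1 s / 4 * w) := by
  have hτ : 0 < 1 - s ^ 2 := by nlinarith
  have hu : 0 < s + w := by linarith
  have hv : 0 < 1 + w := by linarith
  have hc : 0 < 100 * (s + w) ^ 7 * (1 + w) * (1 - s ^ 2) := by positivity
  refine OK2.of_sc (c := 100 * (s + w) ^ 7 * (1 + w) * (1 - s ^ 2)) hc ?_
  have h1 := O2.ok2h hw hw1 hs hs1 hy h (100 * (s + w) ^ 7 * (1 + w) * (1 - s ^ 2) * ddq)
    (100 * (s + w) ^ 7 * (1 + w) * (1 - s ^ 2) * ddY)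
  have e1 : 100 * (s + w) ^ 7 * (1 + w) * (1 - s ^ 2) * (99 / 100 * fa s) = O2.xa w s := by
    rw [O2.xa_eq, ev_nks, fa]
    field_simp
  have e2 : 100 * (s + w) ^ 7 * (1 + w) * (1 - s ^ 2) * fq s w = O2.xq w s := by
    rw [O2.xq_eq, fq, fr]
    field_simp
  have e3 : 100 * (s + w) ^ 7 * (1 + w) * (1 - s ^ 2) * fdq s w = O2.xdq w s := by
    rw [O2.xdq_eq, fdq, fr]
    field_simp
    ring
  have e4 : 100 * (s + w) ^ 7 * (1 + w) * (1 - s ^ 2) * fY s w = O2.xY w s := by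
    rw [O2.xY_eq, fY, fr]
    field_simp
  have e5 : 100 * (s + w) ^ 7 * (1 + w) * (1 - s ^ 2) * fdY s w = O2.xdY w s := by
    rw [O2.xdY_eq, fdY, fr]
    field_simp
    ring
  have e6 : 100 * (s + w) ^ 7 * (1 + w) * (1 - s ^ 2) * (fk1 s * s / 4 + fk1 s / 4 * w)
      = O2.xhk w s := by
    rw [O2.xhk_eq, ev_nk1]
    ring
  rw [e6]
  have e7 : sc (100 * (s + w) ^ 7 * (1 + w) * (1 - s ^ 2))
      (Pv.mk w y (99 / 100 * fa s) (fq s w) (fdq s w) ddq (fY s w) (fdY s w) ddY)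
      = O2.hv w s y (100 * (s + w) ^ 7 * (1 + w) * (1 - s ^ 2) * ddq)
        (100 * (s + w) ^ 7 * (1 + w) * (1 - s ^ 2) * ddY) := by
    simp only [sc, O2.hv, e1, e2, e3, e4, e5]
  rw [e7]
  exact h1

theorem ok2 {w s y : ℝ} (hw : 0 < w) (hw1 : w < 1) (hs : 0 < s) (hs1 : s < 1) (hy : 0 < y)
    (h : y ^ 2 * (1 - s ^ 2) = 1 - w ^ 2) (ddq ddY : ℝ) :
    (Pv.mk w y (fa s) (fq s w) (fdq s w) ddq (fY s w) (fdY s w) ddY).OK2
      (fk1 s * s / 4 + fk1 s / 4 * w) := by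
  refine OK2.mono hy.le ?_ (ok2s hw hw1 hs hs1 hy h ddq ddY)
  have : 0 ≤ fa s := div_nonneg (fks_pos hs hs1).le (by nlinarith)
  linarith

/-- strict form: the constant `a` can be decreased -/
theorem ok2_strict {w s y : ℝ} (hw : 0 < w) (hw1 : w < 1) (hs : 0 < s) (hs1 : s < 1) (hy : 0 < y)
    (h : y ^ 2 * (1 - s ^ 2) = 1 - w ^ 2) (ddq ddY : ℝ) :
    ∃ e : ℝ, 0 < e ∧
    (Pv.mk w y (fa s - e) (fq s w) (fdq s w) ddq (fY s w) (fdY s w) ddY).OK2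
      (fk1 s * s / 4 + fk1 s / 4 * w) := by
  have hf : 0 < fa s := div_pos (fks_pos hs hs1) (by nlinarith)
  refine ⟨fa s / 100, by positivity, ?_⟩
  have e1 : fa s - fa s / 100 = 99 / 100 * fa s := by ring
  rw [e1]
  exact ok2s hw hw1 hs hs1 hy h ddq ddY

end

end Vale.Agent.Lib.P219.Ex
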