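import Vale.Agent.Lib.P219.K.Ex.Lit
import Vale.Agent.Lib.P219.K.Lin2.Defs2

/-! # P219: the explicit family as functions; derivatives, bounds -/

namespace Vale.Agent.Lib.P219.Ex

open Vale.Agent.Lib.P219.Bern

noncomputable section

/-- `N / (c (s+w)^j (1+w))` -/
def fr (N : P2) (c : ℝ) (j : ℕ) (s w : ℝ) : ℝ := ev2 w s N / (c * (s + w) ^ j * (1 + w))

def fq (s w : ℝ) : ℝ := fr nq0 1 5 s w
def fdq (s w : ℝ) : ℝ := fr nq1 2 6 s w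
def fddq (s w : ℝ) : ℝ := fr nq2 4 7 s w
def fdddq (s w : ℝ) : ℝ := fr nq3 8 8 s w
def fY (s w : ℝ) : ℝ := fr nY0 1 6 s w
def fdY (s w : ℝ) : ℝ := fr nY1 2 7 s w
def fddY (s w : ℝ) : ℝ := fr nY2 4 8 s w
def fdddY (s w : ℝ) : ℝ := fr nY3 8 9 s w
/-- `k(s)` -/
def fks (s : ℝ) : ℝ := ev2 0 s nks
/-- `k(1)` -/
def fk1 (s : ℝ) : ℝ := ev2 0 s nk1
def fa (s : ℝ) : ℝ := fks s / (1 - s ^ 2)

theorem fr_deriv {N N' : P2} {c c' : ℝ} {j : ℕ} (hc : c ≠ 0) (hc' : 2 * c = c')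
    (hN : ∀ w s : ℝ, ev2 w s (Dn j N) = ev2 w s N') {s : ℝ} (hs : 0 < s) {w : ℝ} (hw : 0 < w)
    (hw1 : w < 1) :
    HasDerivAt (fr N c j s) (-(2 * fr N' c' (j + 1) s w) / (w * (1 - w ^ 2))) w := by
  have := hasDerivAt_frac N j c w s hc hs hw hw1
  rw [hN, hc'] at this
  exact this

theorem fq_deriv {s : ℝ} (hs : 0 < s) {w : ℝ} (hw : 0 < w) (hw1 : w < 1) :
    HasDerivAt (fq s) (-(2 * fdq s w) / (w * (1 - w ^ 2))) w :=
  fr_deriv (by norm_num) (by norm_num) nq1_ev hs hw hw1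
theorem fdq_deriv {s : ℝ} (hs : 0 < s) {w : ℝ} (hw : 0 < w) (hw1 : w < 1) :
    HasDerivAt (fdq s) (-(2 * fddq s w) / (w * (1 - w ^ 2))) w :=
  fr_deriv (by norm_num) (by norm_num) nq2_ev hs hw hw1
theorem fddq_deriv {s : ℝ} (hs : 0 < s) {w : ℝ} (hw : 0 < w) (hw1 : w < 1) :
    HasDerivAt (fddq s) (-(2 * fdddq s w) / (w * (1 - w ^ 2))) w :=
  fr_deriv (by norm_num) (by norm_num) nq3_ev hs hw hw1
theorem fY_deriv {s : ℝ} (hs : 0 < s) {w : ℝ} (hw : 0 < w) (hw1 : w < 1) :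
    HasDerivAt (fY s) (-(2 * fdY s w) / (w * (1 - w ^ 2))) w :=
  fr_deriv (by norm_num) (by norm_num) nY1_ev hs hw hw1
theorem fdY_deriv {s : ℝ} (hs : 0 < s) {w : ℝ} (hw : 0 < w) (hw1 : w < 1) :
    HasDerivAt (fdY s) (-(2 * fddY s w) / (w * (1 - w ^ 2))) w :=
  fr_deriv (by norm_num) (by norm_num) nY2_ev hs hw hw1
theorem fddY_deriv {s : ℝ} (hs : 0 < s) {w : ℝ} (hw : 0 < w) (hw1 : w < 1) :
    HasDerivAt (fddY s) (-(2 * fdddY s w) / (w * (1 - w ^ 2))) w :=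
  fr_deriv (by norm_num) (by norm_num) nY3_ev hs hw hw1

theorem fr_bdd (N : P2) {c : ℝ} (hc : 0 < c) (j : ℕ) {s : ℝ} (hs : 0 < s) :
    ∃ M, ∀ w, 0 < w → w < 1 → |fr N c j s w| ≤ M := by
  have hcont : ContinuousOn (fr N c j s) (Set.Icc 0 1) := by
    unfold fr
    apply ContinuousOn.div
    · exact fun w _ => (dw_deriv N w s).continuousAt.continuousWithinAt
    · fun_prop
    · intro w hw
      have : 0 ≤ w := hw.1
      positivity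
  obtain ⟨M, hM⟩ := isCompact_Icc.exists_bound_of_continuousOn hcont
  exact ⟨M, fun w hw hw1 => by simpa using hM w ⟨hw.le, hw1.le⟩⟩

theorem f_bdd {s : ℝ} (hs : 0 < s) : ∃ M, ∀ w, 0 < w → w < 1 →
    |fq s w| ≤ M ∧ |fdq s w| ≤ M ∧ |fY s w| ≤ M ∧ |fdY s w| ≤ M := by
  obtain ⟨M1, h1⟩ := fr_bdd nq0 (c := 1) (by norm_num) 5 hs
  obtain ⟨M2, h2⟩ := fr_bdd nq1 (c := 2) (by norm_num) 6 hs
  obtain ⟨M3, h3⟩ := fr_bdd nY0 (c := 1) (by norm_num) 6 hs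
  obtain ⟨M4, h4⟩ := fr_bdd nY1 (c := 2) (by norm_num) 7 hs
  refine ⟨max (max M1 M2) (max M3 M4), fun w hw hw1 => ⟨?_, ?_, ?_, ?_⟩⟩
  · exact (h1 w hw hw1).trans ((le_max_left _ _).trans (le_max_left _ _))
  · exact (h2 w hw hw1).trans ((le_max_right _ _).trans (le_max_left _ _))
  · exact (h3 w hw hw1).trans ((le_max_left _ _).trans (le_max_right _ _))
  · exact (h4 w hw hw1).trans ((le_max_right _ _).trans (le_max_right _ _))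

theorem fks_pos {s : ℝ} (hs : 0 < s) (hs1 : s < 1) : 0 < fks s := by
  have e : fks s = s ^ 3 * (93240 + 466200 * s + 1123920 * s ^ 2 + 1640400 * s ^ 3
      + 1392456 * s ^ 4 + 465912 * s ^ 5 + 34992 * s ^ 6 - 19296 * s ^ 7) := by
    simp [fks, ev2, ev1, pev, nks]
    ring
  rw [e]
  have h7 : s ^ 7 ≤ 1 := pow_le_one₀ hs.le hs1.le
  have h0 : 0 ≤ 466200 * s + 1123920 * s ^ 2 + 1640400 * s ^ 3
      + 1392456 * s ^ 4 + 465912 * s ^ 5 + 34992 * s ^ 6 := by positivity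
  have h3 : 0 < s ^ 3 := by positivity
  apply mul_pos h3
  linarith

theorem fk1_pos {s : ℝ} (hs : 0 < s) (hs1 : s < 1) : 0 < fk1 s := by
  have e : fk1 s = 99000 + 495000 * s + 1149390 * s ^ 2 + 1557345 * s ^ 3 + 1327575 * s ^ 4
      + 571545 * s ^ 5 + 11325 * s ^ 6 - 14562 * s ^ 7 + 1206 * s ^ 8 := by
    simp [fk1, ev2, ev1, pev, nk1]
    ring
  rw [e]
  have h7 : s ^ 7 ≤ 1 := pow_le_one₀ hs.le hs1.le
  have h0 : 0 ≤ 495000 * s + 1149390 * s ^ 2 + 1557345 * s ^ 3 + 1327575 * s ^ 4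
      + 571545 * s ^ 5 + 11325 * s ^ 6 + 1206 * s ^ 8 := by positivity
  linarith

end

end Vale.Agent.Lib.P219.Ex
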