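import Vale.Agent.Lib.P219.K.Ex.RtChk
import Vale.Agent.Lib.P219.K.Ex.Fun

/-! # P219: the explicit family, region `w ≤ s`: the conditions `OKr2` -/

set_option linter.unusedSimpArgs false

namespace Vale.Agent.Lib.P219.Ex

open Vale.Agent.Lib.P219.Bern

noncomputable section

namespace Rt

section real
variable (w s m E dE ddE Y dY ddY a d k p1 p2 p3 q1 q2 q3 q4 : ℝ)

def rA1 : ℝ := 2 * (w ^ 2 * dE + 2 * ddE - w ^ 2 * ((1 - w ^ 2) * E))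
  + 3 * ((2 - w ^ 2) * (w ^ 2 * E + 2 * dE))
def rKA : ℝ := 2 * (w ^ 2 * ((1 - w ^ 2) * E) + (2 - w ^ 2) * dE)
  + 3 * ((2 - w ^ 2) * ((2 - w ^ 2) * E))
def rB1 : ℝ := 4 * ddY + (3 * (2 - w ^ 2) - w ^ 2) * (2 * dY)
def rKB : ℝ := 2 * (w ^ 2 * ((1 - w ^ 2) * Y) + (2 - w ^ 2) * dY)
  + (3 * (2 - w ^ 2) - w ^ 2) * ((2 - w ^ 2) * Y)
def rGB : ℝ := 2 * (w ^ 2 * dY - w ^ 2 * ((1 - w ^ 2) * Y))
  + (3 * (2 - w ^ 2) - w ^ 2) * (w ^ 2 * Y)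
def rE : ℝ := 6 * (w ^ 2 * E + 2 * dE) + 18 * ((2 - w ^ 2) * E)
def rY : ℝ := 12 * dY + 18 * ((2 - w ^ 2) * Y)
def rV : ℝ := k * (6 * ((2 - w ^ 2) * a))
  + (1 - s ^ 2) * (p1 * rA1 w E dE ddE + p2 * rKA w E dE - p3 * rY w Y dY)
def rU : ℝ := (1 - s ^ 2) * (q1 * rB1 w dY ddY + q2 * rKB w Y dY + q3 * rGB w Y dY)
  - (1 - w ^ 2) * (q4 * rE w E dE)

end real

theorem core {X T y U V : ℝ} (hT : 0 < T) (hX : 0 ≤ X) (hy : 0 ≤ y) (hyT : y ^ 2 * T = X)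
    (hV : 0 ≤ V) (hW : 0 ≤ (X + T) * U + V) : 0 ≤ y * V + 2 * X * U := by
  have hXT : 0 < X + T := by linarith
  have h1 : 2 * X ≤ (X + T) * y := by
    rw [← hyT]
    nlinarith [mul_nonneg (mul_nonneg hT.le hy) (sq_nonneg (y - 1))]
  have h2 : 2 * X * V ≤ (X + T) * y * V := mul_le_mul_of_nonneg_right h1 hV
  have h3 : 0 ≤ (X + T) * (y * V + 2 * X * U) := by
    nlinarith [mul_nonneg hX hW]
  exact nonneg_of_mul_nonneg_right h3 hXT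

theorem core_pos {X T y U V : ℝ} (hT : 0 < T) (hX : 0 ≤ X) (hy : 1 < y) (hyT : y ^ 2 * T = X)
    (hV : 0 < V) (hW : 0 ≤ (X + T) * U + V) : 0 < y * V + 2 * X * U := by
  have hXT : 0 < X + T := by linarith
  have h0 : 0 < T * y * (y - 1) ^ 2 := by
    have : 0 < y - 1 := by linarith
    positivity
  have h1 : 2 * X < (X + T) * y := by
    rw [← hyT]
    nlinarith
  have h2 : 2 * X * V < (X + T) * y * V := mul_lt_mul_of_pos_right h1 hV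
  have h3 : 0 < (X + T) * (y * V + 2 * X * U) := by
    nlinarith [mul_nonneg hX hW]
  exact pos_of_mul_pos_right h3 hXT.le

theorem core' {X T y U V : ℝ} (hT : 0 < T) (hX : 0 ≤ X) (hy : 0 ≤ y) (hyT : y ^ 2 * T = X)
    (hV : 0 ≤ V) (hW : 0 ≤ (X + T) * U + 2 * (X * V)) : 0 ≤ y * V + U := by
  have hXT : 0 < X + T := by linarith
  have h1 : 2 * X ≤ (X + T) * y := by
    rw [← hyT]
    nlinarith [mul_nonneg (mul_nonneg hT.le hy) (sq_nonneg (y - 1))]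
  have h2 : 2 * X * V ≤ (X + T) * y * V := mul_le_mul_of_nonneg_right h1 hV
  have h3 : 0 ≤ (X + T) * (y * V + U) := by
    nlinarith
  exact nonneg_of_mul_nonneg_right h3 hXT

/-- the combination `4 (dB + 3/2 (2-w²) B)` -/
theorem comb {w y s A q dq ddq Y dY ddY a : ℝ} (hA : (1 - s ^ 2) * A = a)
    (hy : y ^ 2 * (1 - s ^ 2) = 1 - w ^ 2) (m p ρ : ℝ) :
    4 * (1 - s ^ 2) * ((Lin.Pv.mk w y A q dq ddq Y dY ddY).dB m p ρ
      + 3 / 2 * (2 - w ^ 2) * (Lin.Pv.mk w y A q dq ddq Y dY ddY).B m p ρ)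
    = y * rV w s (q - Y) (dq - dY) (ddq - ddY) Y dY a 1 (1 - 2 * m ^ 2 + p) (2 + 2 * m ^ 2 - p) p
      + rU w s (q - Y) (dq - dY) Y dY ddY (m * (1 - p)) (m * (2 + p)) (m * ρ) m := by
  simp only [Lin.Pv.dB, Lin.Pv.B, Lin.Pv.dA1, Lin.Pv.dKA, Lin.Pv.dB1, Lin.Pv.dKB, Lin.Pv.dGB,
    Lin.Pv.A1, Lin.Pv.KA, Lin.Pv.B1, Lin.Pv.KB, Lin.Pv.GB, rV, rU, rA1, rKA, rB1, rKB, rGB, rE, rY]
  linear_combination (6 * (2 - w ^ 2) * y) * hA
    - m * (6 * (w ^ 2 * (q - Y) + 2 * (dq - dY)) + 18 * ((2 - w ^ 2) * (q - Y))) * hy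

/-- the values of the atoms -/
structure At (w s : ℝ) where
  E : ℝ
  dE : ℝ
  ddE : ℝ
  Y : ℝ
  dY : ℝ
  ddY : ℝ
  a : ℝ
  d : ℝ

def at0 (w s : ℝ) : At w s where
  E := 4 * (s + w) ^ 3 * ev2 w s nq0 - 4 * (s + w) ^ 2 * ev2 w s nY0
  dE := 2 * (s + w) ^ 2 * ev2 w s nq1 - 2 * (s + w) * ev2 w s nY1
  ddE := (s + w) * ev2 w s nq2 - ev2 w s nY2
  Y := 4 * (s + w) ^ 2 * ev2 w s nY0
  dY := 2 * (s + w) * ev2 w s nY1
  ddY := ev2 w s nY2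
  a := 4 * (s + w) ^ 8 * (1 + w) * ev2 w s nks
  d := 48 * (s + w) ^ 8 * (1 + w) * ev2 w s nk1

theorem e0 (w s m : ℝ) : (PE.v 0).ev (env Lr w s m) = w := rfl
theorem e1 (w s m : ℝ) : (PE.v 1).ev (env Lr w s m) = s := rfl
theorem e2 (w s m : ℝ) : (PE.v 2).ev (env Lr w s m) = m := rfl
theorem e3 (w s m : ℝ) : (PE.v 3).ev (env Lr w s m) = (at0 w s).E := by
  have h := isEv2 w s
  change ev2 w s (sb2 (scr 4 3 nq0) (scr 4 2 nY0)) = _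
  rw [sb2, h.add, h.mul, h.ofI, ev_scr, ev_scr]
  simp only [at0]
  push_cast
  ring
theorem e4 (w s m : ℝ) : (PE.v 4).ev (env Lr w s m) = (at0 w s).dE := by
  have h := isEv2 w s
  change ev2 w s (sb2 (scr 2 2 nq1) (scr 2 1 nY1)) = _
  rw [sb2, h.add, h.mul, h.ofI, ev_scr, ev_scr]
  simp only [at0]
  push_cast
  ring
theorem e5 (w s m : ℝ) : (PE.v 5).ev (env Lr w s m) = (at0 w s).ddE := by
  have h := isEv2 w s
  change ev2 w s (sb2 (scr 1 1 nq2) nY2) = _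
  rw [sb2, h.add, h.mul, h.ofI, ev_scr]
  simp only [at0]
  push_cast
  ring
theorem e6 (w s m : ℝ) : (PE.v 6).ev (env Lr w s m) = (at0 w s).Y := by
  change ev2 w s (scr 4 2 nY0) = _
  rw [ev_scr]
  simp only [at0]
  push_cast
  ring
theorem e7 (w s m : ℝ) : (PE.v 7).ev (env Lr w s m) = (at0 w s).dY := by
  change ev2 w s (scr 2 1 nY1) = _
  rw [ev_scr]
  simp only [at0]
  push_cast
  ring
theorem e8 (w s m : ℝ) : (PE.v 8).ev (env Lr w s m) = (at0 w s).ddY := rfl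
theorem e9 (w s m : ℝ) : (PE.v 9).ev (env Lr w s m) = (at0 w s).a := by
  change ev2 w s (scr8 4 nks) = _
  rw [ev_scr8]
  simp only [at0]
  push_cast
  ring
theorem e10 (w s m : ℝ) : (PE.v 10).ev (env Lr w s m) = (at0 w s).d := by
  change ev2 w s (scr8 48 nk1) = _
  rw [ev_scr8]
  simp only [at0]
  push_cast
  ring

theorem n0 (ρ : ℕ → ℝ) : (0 : PE).ev ρ = 0 := by
  rw [PE.ev_ofNat]; norm_num
theorem n1 (ρ : ℕ → ℝ) : (1 : PE).ev ρ = 1 := by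
  rw [PE.ev_ofNat]; norm_num
theorem n2 (ρ : ℕ → ℝ) : (2 : PE).ev ρ = 2 := by
  rw [PE.ev_ofNat]; norm_num
theorem n3 (ρ : ℕ → ℝ) : (3 : PE).ev ρ = 3 := by
  rw [PE.ev_ofNat]; norm_num
theorem n4 (ρ : ℕ → ℝ) : (4 : PE).ev ρ = 4 := by
  rw [PE.ev_ofNat]; norm_num
theorem n5 (ρ : ℕ → ℝ) : (5 : PE).ev ρ = 5 := by
  rw [PE.ev_ofNat]; norm_num
theorem n6 (ρ : ℕ → ℝ) : (6 : PE).ev ρ = 6 := by
  rw [PE.ev_ofNat]; norm_num
theorem n12 (ρ : ℕ → ℝ) : (12 : PE).ev ρ = 12 := by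
  rw [PE.ev_ofNat]; norm_num
theorem n18 (ρ : ℕ → ℝ) : (18 : PE).ev ρ = 18 := by
  rw [PE.ev_ofNat]; norm_num

theorem band {a b : Bool} (h : (a && b) = true) : a = true ∧ b = true := by
  simpa using h

variable {w s m : ℝ}

theorem pos1 (hs : 0 < s) (hs1 : s ≤ 1) (hw : 0 ≤ w) (hws : w ≤ s) (hm : 0 ≤ m) (hm1 : m ≤ 1) :
    let t := at0 w s
    let V := 2 * ((1 - w ^ 2) * rV w s t.E t.dE t.ddE t.Y t.dY t.a 1 (1 - m ^ 2) (2 + m ^ 2)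
      (m ^ 2)) - (1 - s ^ 2) * (m ^ 2 * (w ^ 6 * t.d))
    let U := rU w s t.E t.dE t.Y t.dY t.ddY (m * (1 - m ^ 2)) (m * (2 + m ^ 2))
      (m * (1 - m ^ 2)) m
    0 ≤ V ∧ 0 ≤ ((1 - w ^ 2) + (1 - s ^ 2)) * U + V := by
  obtain ⟨h1, h2⟩ := band chk1
  have g1 := posr h1 hs hs1 hw hws hm hm1
  have g2 := posr h2 hs hs1 hw hws hm hm1
  simp only [V1, W1, U1, gV, gU, cA1, cKA, cB1, cKB, cGB, cE, cY, cA, W, X, T, Z, Rt.m, E, dE, ddE,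
    Y, dY, ddY, a, d, PE.ev_add, PE.ev_mul, PE.ev_sub, PE.ev_pow, n0, n1, n2, n3, n4, n5, n6, n12, n18,
    e0, e1, e2, e3, e4, e5, e6, e7, e8, e9, e10] at g1 g2
  intro t V U
  simp only [V, U, t, rV, rU, rA1, rKA, rB1, rKB, rGB, rE, rY]
  exact ⟨by linarith, by linarith⟩

theorem pos2 (hs : 0 < s) (hs1 : s ≤ 1) (hw : 0 ≤ w) (hws : w ≤ s) (hm : 0 ≤ m) (hm1 : m ≤ 1) :
    let t := at0 w s
    let V := 2 * ((1 - w ^ 2) * rV w s t.E t.dE t.ddE t.Y t.dY t.a (2 * (3 + m))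
      ((3 + m) * (1 - m ^ 2)) ((3 + m) * (5 + m ^ 2)) (2 * (m * (3 + m))))
      - (2 * (m * (3 + m))) * ((1 - s ^ 2) * (w ^ 6 * t.d))
    let U := rU w s t.E t.dE t.Y t.dY t.ddY ((1 + m) * ((3 + m) * (1 - m)))
      ((1 + m) * ((3 + m) * (2 + m))) ((1 + m) ^ 2 * (1 - m)) ((1 + m) * (3 + m))
    0 ≤ V ∧ 0 ≤ ((1 - w ^ 2) + (1 - s ^ 2)) * U + V := by
  obtain ⟨h1, h2⟩ := band chk2
  have g1 := posr h1 hs hs1 hw hws hm hm1
  have g2 := posr h2 hs hs1 hw hws hm hm1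
  simp only [V2, W2, U2, gV, gU, cA1, cKA, cB1, cKB, cGB, cE, cY, cA, W, X, T, Z, Rt.m, E, dE, ddE,
    Y, dY, ddY, a, d, PE.ev_add, PE.ev_mul, PE.ev_sub, PE.ev_pow, n0, n1, n2, n3, n4, n5, n6, n12, n18,
    e0, e1, e2, e3, e4, e5, e6, e7, e8, e9, e10] at g1 g2
  intro t V U
  simp only [V, U, t, rV, rU, rA1, rKA, rB1, rKB, rGB, rE, rY]
  exact ⟨by linarith, by linarith⟩

theorem pos3 (hs : 0 < s) (hs1 : s ≤ 1) (hw : 0 ≤ w) (hws : w ≤ s) (hm : 0 ≤ m) (hm1 : m ≤ 1) :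
    let t := at0 w s
    let V := rV w s t.E t.dE t.ddE t.Y t.dY t.a 4 (2 * (2 - m ^ 2)) (2 * (4 + m ^ 2)) 0
    let U := rU w s t.E t.dE t.Y t.dY t.ddY (2 * m) (4 * m) (m * (2 - m ^ 2)) (2 * m)
    0 ≤ V ∧ 0 ≤ ((1 - w ^ 2) + (1 - s ^ 2)) * U + 2 * ((1 - w ^ 2) * V) := by
  obtain ⟨h1, h2⟩ := band chk3
  have g1 := posr h1 hs hs1 hw hws hm hm1
  have g2 := posr h2 hs hs1 hw hws hm hm1
  simp only [V3, W3, U3, gV, gU, cA1, cKA, cB1, cKB, cGB, cE, cY, cA, W, X, T, Z, Rt.m, E, dE, ddE,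
    Y, dY, ddY, a, d, PE.ev_add, PE.ev_mul, PE.ev_sub, PE.ev_pow, n0, n1, n2, n3, n4, n5, n6, n12, n18,
    e0, e1, e2, e3, e4, e5, e6, e7, e8, e9, e10] at g1 g2
  intro t V U
  simp only [V, U, t, rV, rU, rA1, rKA, rB1, rKB, rGB, rE, rY]
  exact ⟨by linarith, by linarith⟩

theorem poss (hs : 0 < s) (hs1 : s ≤ 1) (hw : 0 ≤ w) (hws : w ≤ s) :
    let t := at0 w s
    s ^ 7 * (1 - w) ^ 2 ≤ 2 * ((1 - w ^ 2) * rV w s t.E t.dE t.ddE t.Y t.dY t.a 1 0 3 1)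
      - (1 - s ^ 2) * (w ^ 6 * t.d) := by
  have g1 := posr chks hs hs1 hw hws le_rfl zero_le_one
  simp only [Vs, gV, gU, cA1, cKA, cB1, cKB, cGB, cE, cY, cA, W, X, T, Z, Rt.m, E, dE, ddE,
    Y, dY, ddY, a, d, PE.ev_add, PE.ev_mul, PE.ev_sub, PE.ev_pow, n0, n1, n2, n3, n4, n5, n6, n12, n18,
    e0, e1, e2, e3, e4, e5, e6, e7, e8, e9, e10] at g1
  intro t
  simp only [t, rV, rA1, rKA, rY]
  linarith

/-- the scaled data -/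
def vh (w s y : ℝ) : Lin.Pv := ⟨w, y, (at0 w s).a / (1 - s ^ 2), (at0 w s).E + (at0 w s).Y,
  (at0 w s).dE + (at0 w s).dY, (at0 w s).ddE + (at0 w s).ddY, (at0 w s).Y, (at0 w s).dY,
  (at0 w s).ddY⟩

theorem comb' {y : ℝ} (hs1 : s < 1) (hs : 0 < s) (hy : y ^ 2 * (1 - s ^ 2) = 1 - w ^ 2)
    (m p ρ : ℝ) :
    4 * (1 - s ^ 2) * ((vh w s y).dB m p ρ + 3 / 2 * (2 - w ^ 2) * (vh w s y).B m p ρ)
    = y * rV w s (at0 w s).E (at0 w s).dE (at0 w s).ddE (at0 w s).Y (at0 w s).dY (at0 w s).a 1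
        (1 - 2 * m ^ 2 + p) (2 + 2 * m ^ 2 - p) p
      + rU w s (at0 w s).E (at0 w s).dE (at0 w s).Y (at0 w s).dY (at0 w s).ddY
        (m * (1 - p)) (m * (2 + p)) (m * ρ) m := by
  have hτ : (1 : ℝ) - s ^ 2 ≠ 0 := by nlinarith
  have h := comb (w := w) (y := y) (s := s) (A := (at0 w s).a / (1 - s ^ 2))
    (q := (at0 w s).E + (at0 w s).Y) (dq := (at0 w s).dE + (at0 w s).dY)
    (ddq := (at0 w s).ddE + (at0 w s).ddY) (Y := (at0 w s).Y) (dY := (at0 w s).dY)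
    (ddY := (at0 w s).ddY) (a := (at0 w s).a) (mul_div_cancel₀ _ hτ) hy m p ρ
  rw [add_sub_cancel_right, add_sub_cancel_right, add_sub_cancel_right] at h
  exact h

theorem okr2h {y : ℝ} (hw : 0 < w) (hs : 0 < s) (hs1 : s < 1) (hws : w ≤ s) (hy0 : 0 ≤ y)
    (hy : y ^ 2 * (1 - s ^ 2) = 1 - w ^ 2) : (vh w s y).OKr2 (at0 w s).d := by
  have hτ : (0 : ℝ) < 1 - s ^ 2 := by nlinarith
  have hX : (0 : ℝ) ≤ 1 - w ^ 2 := by nlinarith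
  refine ⟨fun m hm hm1 => ?_, fun m hm hm1 => ?_, fun m hm hm1 => ?_⟩
  · obtain ⟨h1, h2⟩ := pos1 (m := m) hs hs1.le hw.le hws hm hm1
    have h3 := core hτ hX hy0 hy h1 h2
    have h4 := comb' (w := w) hs1 hs hy m (m ^ 2) (1 - m ^ 2)
    set G := (vh w s y).dB m (m ^ 2) (1 - m ^ 2)
      + 3 / 2 * (2 - w ^ 2) * (vh w s y).B m (m ^ 2) (1 - m ^ 2) with hG
    change (at0 w s).d / 8 * m ^ 2 * w ^ 6 * y ≤ (1 - w ^ 2) * G
    have e1 : 1 - 2 * m ^ 2 + m ^ 2 = 1 - m ^ 2 := by ring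
    have e2 : 2 + 2 * m ^ 2 - m ^ 2 = 2 + m ^ 2 := by ring
    rw [e1, e2] at h4
    have h5 : 0 ≤ (8 * (1 - s ^ 2)) * ((1 - w ^ 2) * G - (at0 w s).d / 8 * m ^ 2 * w ^ 6 * y) := by
      have e3 : (8 * (1 - s ^ 2)) * ((1 - w ^ 2) * G - (at0 w s).d / 8 * m ^ 2 * w ^ 6 * y)
          = 2 * (1 - w ^ 2) * (4 * (1 - s ^ 2) * G)
            - (1 - s ^ 2) * ((at0 w s).d * m ^ 2 * w ^ 6 * y) := by ring
      rw [e3, h4]
      refine h3.trans (le_of_eq ?_)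
      ring
    have := nonneg_of_mul_nonneg_right h5 (by positivity)
    linarith
  · obtain ⟨h1, h2⟩ := pos2 (m := 2 * m - 1) hs hs1.le hw.le hws (by linarith) (by linarith)
    have h3 := core hτ hX hy0 hy h1 h2
    have h4 := comb' (w := w) hs1 hs hy m (2 * m - 1) (2 * m * (1 - m) / (1 + m))
    set G := (vh w s y).dB m (2 * m - 1) (2 * m * (1 - m) / (1 + m))
      + 3 / 2 * (2 - w ^ 2) * (vh w s y).B m (2 * m - 1) (2 * m * (1 - m) / (1 + m)) with hG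
    change (at0 w s).d / 8 * (2 * m - 1) * w ^ 6 * y ≤ (1 - w ^ 2) * G
    have hm0 : 0 < 1 + m := by linarith
    have h5 : 0 ≤ (32 * (1 - s ^ 2) * (1 + m)) *
        ((1 - w ^ 2) * G - (at0 w s).d / 8 * (2 * m - 1) * w ^ 6 * y) := by
      have e3 : (32 * (1 - s ^ 2) * (1 + m)) *
          ((1 - w ^ 2) * G - (at0 w s).d / 8 * (2 * m - 1) * w ^ 6 * y)
          = 8 * (1 + m) * (1 - w ^ 2) * (4 * (1 - s ^ 2) * G)
            - 4 * (1 + m) * (1 - s ^ 2) * ((at0 w s).d * (2 * m - 1) * w ^ 6 * y) := by ring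
      rw [e3, h4]
      refine h3.trans (le_of_eq ?_)
      have e4 : (1 + m) * (2 * m * (1 - m) / (1 + m)) = 2 * m * (1 - m) := by
        field_simp
      generalize 2 * m * (1 - m) / (1 + m) = ρ at e4 ⊢
      simp only [rV, rU]
      generalize rA1 w (at0 w s).E (at0 w s).dE (at0 w s).ddE = c1
      generalize rKA w (at0 w s).E (at0 w s).dE = c2
      generalize rY w (at0 w s).Y (at0 w s).dY = c3
      generalize rB1 w (at0 w s).dY (at0 w s).ddY = c4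
      generalize rKB w (at0 w s).Y (at0 w s).dY = c5
      generalize rGB w (at0 w s).Y (at0 w s).dY = c6
      generalize rE w (at0 w s).E (at0 w s).dE = c7
      linear_combination (- 8 * (1 - w ^ 2) * (1 - s ^ 2) * m * c6) * e4
    have := nonneg_of_mul_nonneg_right h5 (by positivity)
    linarith
  · obtain ⟨h1, h2⟩ := pos3 (m := 2 * m) hs hs1.le hw.le hws (by linarith) (by linarith)
    have h3 := core' hτ hX hy0 hy h1 h2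
    have h4 := comb' (w := w) hs1 hs hy m 0 (1 - 2 * m ^ 2)
    set G := (vh w s y).dB m 0 (1 - 2 * m ^ 2)
      + 3 / 2 * (2 - w ^ 2) * (vh w s y).B m 0 (1 - 2 * m ^ 2) with hG
    change 0 ≤ G
    have h5 : 0 ≤ (16 * (1 - s ^ 2)) * G := by
      have e3 : (16 * (1 - s ^ 2)) * G = 4 * (4 * (1 - s ^ 2) * G) := by ring
      rw [e3, h4]
      refine h3.trans (le_of_eq ?_)
      simp only [rV, rU]
      ring
    exact nonneg_of_mul_nonneg_right h5 (by positivity)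

theorem okr2h_strict {y : ℝ} (hw : 0 < w) (hs : 0 < s) (hs1 : s < 1) (hws : w ≤ s) (hy0 : 1 < y)
    (hy : y ^ 2 * (1 - s ^ 2) = 1 - w ^ 2) :
    (at0 w s).d / 8 * w ^ 6 * y < (1 - w ^ 2) * ((vh w s y).dB 1 1 0
      + 3 / 2 * (2 - w ^ 2) * (vh w s y).B 1 1 0) := by
  have hτ : (0 : ℝ) < 1 - s ^ 2 := by nlinarith
  have hX : (0 : ℝ) ≤ 1 - w ^ 2 := by nlinarith
  obtain ⟨-, h2⟩ := pos1 (m := 1) hs hs1.le hw.le hws zero_le_one le_rfl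
  have h6 := poss (w := w) hs hs1.le hw.le hws
  have h7 : 0 < s ^ 7 * (1 - w) ^ 2 := by
    have : 0 < 1 - w := by linarith
    positivity
  have h8 := h7.trans_le h6
  norm_num at h2
  have h3 := core_pos hτ hX hy0 hy h8 h2
  have h4 := comb' (w := w) hs1 hs hy 1 1 0
  set G := (vh w s y).dB 1 1 0 + 3 / 2 * (2 - w ^ 2) * (vh w s y).B 1 1 0 with hG
  norm_num at h4
  have h5 : 0 < (8 * (1 - s ^ 2)) * ((1 - w ^ 2) * G - (at0 w s).d / 8 * w ^ 6 * y) := by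
    have e3 : (8 * (1 - s ^ 2)) * ((1 - w ^ 2) * G - (at0 w s).d / 8 * w ^ 6 * y)
        = 2 * (1 - w ^ 2) * (4 * (1 - s ^ 2) * G)
          - (1 - s ^ 2) * ((at0 w s).d * w ^ 6 * y) := by ring
    rw [e3, h4]
    refine h3.trans_le (le_of_eq ?_)
    ring
  have := pos_of_mul_pos_right h5 (by positivity)
  linarith

/-- scaling -/
theorem of_scale {v v' : Lin.Pv} {c d d' : ℝ} (hc : 0 < c) (hw : v'.w = v.w) (hy : v'.y = v.y)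
    (ha : v'.a = c * v.a) (hq : v'.q = c * v.q) (hdq : v'.dq = c * v.dq)
    (hddq : v'.ddq = c * v.ddq) (hY : v'.Y = c * v.Y) (hdY : v'.dY = c * v.dY)
    (hddY : v'.ddY = c * v.ddY) (hd : d' = c * d) (h : v'.OKr2 d') : v.OKr2 d := by
  have hB : ∀ m p ρ : ℝ, v'.B m p ρ = c * v.B m p ρ := by
    intro m p ρ
    simp only [Lin.Pv.B, Lin.Pv.A1, Lin.Pv.KA, Lin.Pv.B1, Lin.Pv.KB, Lin.Pv.GB, hw, hy, ha, hq,
      hdq, hY, hdY]
    ring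
  have hdB : ∀ m p ρ : ℝ, v'.dB m p ρ = c * v.dB m p ρ := by
    intro m p ρ
    simp only [Lin.Pv.dB, Lin.Pv.dA1, Lin.Pv.dKA, Lin.Pv.dB1, Lin.Pv.dKB, Lin.Pv.dGB, Lin.Pv.B1,
      Lin.Pv.KB, Lin.Pv.GB, hw, hy, hq, hdq, hddq, hY, hdY, hddY]
    ring
  refine ⟨fun m hm hm1 => ?_, fun m hm hm1 => ?_, fun m hm hm1 => ?_⟩
  · have := h.h1 m hm hm1
    rw [hB, hdB, hw, hy, hd] at this
    refine le_of_mul_le_mul_left ?_ hc
    linarith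
  · have := h.h2 m hm hm1
    rw [hB, hdB, hw, hy, hd] at this
    refine le_of_mul_le_mul_left ?_ hc
    linarith
  · have := h.h3 m hm hm1
    rw [hB, hdB, hw] at this
    refine nonneg_of_mul_nonneg_right ?_ hc
    linarith

theorem scale_strict {v v' : Lin.Pv} {c d d' : ℝ} (hc : 0 < c) (hw : v'.w = v.w) (hy : v'.y = v.y)
    (ha : v'.a = c * v.a) (hq : v'.q = c * v.q) (hdq : v'.dq = c * v.dq)
    (hddq : v'.ddq = c * v.ddq) (hY : v'.Y = c * v.Y) (hdY : v'.dY = c * v.dY)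
    (hddY : v'.ddY = c * v.ddY) (hd : d' = c * d)
    (h : d' / 8 * v'.w ^ 6 * v'.y < (1 - v'.w ^ 2) * (v'.dB 1 1 0
      + 3 / 2 * (2 - v'.w ^ 2) * v'.B 1 1 0)) :
    d / 8 * v.w ^ 6 * v.y < (1 - v.w ^ 2) * (v.dB 1 1 0
      + 3 / 2 * (2 - v.w ^ 2) * v.B 1 1 0) := by
  have hB : ∀ m p ρ : ℝ, v'.B m p ρ = c * v.B m p ρ := by
    intro m p ρ
    simp only [Lin.Pv.B, Lin.Pv.A1, Lin.Pv.KA, Lin.Pv.B1, Lin.Pv.KB, Lin.Pv.GB, hw, hy, ha, hq,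
      hdq, hY, hdY]
    ring
  have hdB : ∀ m p ρ : ℝ, v'.dB m p ρ = c * v.dB m p ρ := by
    intro m p ρ
    simp only [Lin.Pv.dB, Lin.Pv.dA1, Lin.Pv.dKA, Lin.Pv.dB1, Lin.Pv.dKB, Lin.Pv.dGB, Lin.Pv.B1,
      Lin.Pv.KB, Lin.Pv.GB, hw, hy, hq, hdq, hddq, hY, hdY, hddY]
    ring
  rw [hB, hdB, hw, hy, hd] at h
  refine lt_of_mul_lt_mul_left ?_ hc.le
  linarith

end Rt

section main
variable {w s y : ℝ}

/-- the values of the family -/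
def vf (w s y : ℝ) : Lin.Pv :=
  ⟨w, y, fa s, fq s w, fdq s w, fddq s w, fY s w, fdY s w, fddY s w⟩

theorem scale_all (hw : 0 < w) (hs : 0 < s) (hs1 : s < 1) :
    (Rt.vh w s y).a = (4 * (s + w) ^ 8 * (1 + w)) * (vf w s y).a ∧
    (Rt.vh w s y).q = (4 * (s + w) ^ 8 * (1 + w)) * (vf w s y).q ∧
    (Rt.vh w s y).dq = (4 * (s + w) ^ 8 * (1 + w)) * (vf w s y).dq ∧
    (Rt.vh w s y).ddq = (4 * (s + w) ^ 8 * (1 + w)) * (vf w s y).ddq ∧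
    (Rt.vh w s y).Y = (4 * (s + w) ^ 8 * (1 + w)) * (vf w s y).Y ∧
    (Rt.vh w s y).dY = (4 * (s + w) ^ 8 * (1 + w)) * (vf w s y).dY ∧
    (Rt.vh w s y).ddY = (4 * (s + w) ^ 8 * (1 + w)) * (vf w s y).ddY ∧
    (Rt.at0 w s).d = (4 * (s + w) ^ 8 * (1 + w)) * (12 * fk1 s) := by
  have h1 : s + w ≠ 0 := by positivity
  have h2 : 1 + w ≠ 0 := by positivity
  have h3 : (1 : ℝ) - s ^ 2 ≠ 0 := by nlinarith
  have hks : ev2 w s nks = fks s := by simp [fks, ev2, pev, nks]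
  have hk1 : ev2 w s nk1 = fk1 s := by simp [fk1, ev2, pev, nk1]
  simp only [Rt.vh, Rt.at0, vf, fa, fq, fdq, fddq, fY, fdY, fddY, fr, hks, hk1]
  refine ⟨?_, ?_, ?_, ?_, ?_, ?_, ?_, ?_⟩
  · field_simp
  · field_simp
    ring
  · field_simp
    ring
  · field_simp
    ring
  · field_simp
  · field_simp
    ring
  · field_simp
  · ring

theorem le_of_y (hs : 0 < s) (hs1 : s < 1) (hy1 : 1 ≤ y)
    (hy : y ^ 2 * (1 - s ^ 2) = 1 - w ^ 2) : w ≤ s := by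
  have h : (0 : ℝ) < 1 - s ^ 2 := by nlinarith
  have h2 : 1 ≤ y ^ 2 := by nlinarith
  have h3 : w ^ 2 ≤ s ^ 2 := by nlinarith
  exact le_of_sq_le_sq h3 hs.le

theorem okr2 (hw : 0 < w) (hs : 0 < s) (hs1 : s < 1) (hy1 : 1 ≤ y)
    (hy : y ^ 2 * (1 - s ^ 2) = 1 - w ^ 2) :
    (Lin.Pv.mk w y (fa s) (fq s w) (fdq s w) (fddq s w) (fY s w) (fdY s w) (fddY s w)).OKr2
      (12 * fk1 s) := by
  obtain ⟨h1, h2, h3, h4, h5, h6, h7, h8⟩ := scale_all (y := y) hw hs hs1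
  exact Rt.of_scale (v := vf w s y) (v' := Rt.vh w s y) (by positivity) rfl rfl h1 h2 h3 h4 h5 h6
    h7 h8 (Rt.okr2h hw hs hs1 (le_of_y hs hs1 hy1 hy) (by linarith) hy)

theorem okr2_strict (hw : 0 < w) (hs : 0 < s) (hs1 : s < 1) (hy1 : 1 < y)
    (hy : y ^ 2 * (1 - s ^ 2) = 1 - w ^ 2) :
    12 * fk1 s / 8 * w ^ 6 * y < (1 - w ^ 2) *
      ((Lin.Pv.mk w y (fa s) (fq s w) (fdq s w) (fddq s w) (fY s w) (fdY s w) (fddY s w)).dB 1 1 0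
      + 3 / 2 * (2 - w ^ 2) *
        (Lin.Pv.mk w y (fa s) (fq s w) (fdq s w) (fddq s w) (fY s w) (fdY s w) (fddY s w)).B
          1 1 0) := by
  obtain ⟨h1, h2, h3, h4, h5, h6, h7, h8⟩ := scale_all (y := y) hw hs hs1
  exact Rt.scale_strict (v := vf w s y) (v' := Rt.vh w s y) (by positivity) rfl rfl h1 h2 h3 h4 h5
    h6 h7 h8 (Rt.okr2h_strict hw hs hs1 (le_of_y hs hs1 hy1.le hy) hy1 hy)

end main

end

end Vale.Agent.Lib.P219.Ex
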