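import Mathlib.Analysis.SpecialFunctions.Trigonometric.DerivHyp
import Vale.Agent.Lib.P219.K.Ex.LtS
import Vale.Agent.Lib.P219.K.Ex.Rt
import Vale.Agent.Lib.P219.K.Ex.Ok2S

/-! # P219: a certificate of the linear class for every radius -/

namespace Vale.Agent.Lib.P219.Ex

open Vale.Agent.Lib.P219.Bern Lin

noncomputable section

/-- `1 / cosh R` -/
def sR (R : ℝ) : ℝ := 1 / Real.cosh R

theorem sR_pos (R : ℝ) : 0 < sR R := by
  have := Real.cosh_pos R
  unfold sR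
  positivity

theorem sR_lt {R : ℝ} (hR : 0 < R) : sR R < 1 := by
  unfold sR
  rw [div_lt_one (Real.cosh_pos R)]
  exact Real.one_lt_cosh.2 hR.ne'

theorem tanh_sq (R : ℝ) : Real.tanh R ^ 2 = 1 - sR R ^ 2 := by
  have h := Real.cosh_pos R
  rw [Real.tanh_eq_sinh_div_cosh, sR, div_pow, div_pow, Real.sinh_sq]
  field_simp

/-- the certificate for the radius `R` -/
def cert (R : ℝ) (hR : 0 < R) : LinCert2 R where
  q := fq (sR R)
  dq := fdq (sR R)
  ddq := fddq (sR R)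
  dddq := fdddq (sR R)
  Y := fY (sR R)
  dY := fdY (sR R)
  ddY := fddY (sR R)
  dddY := fdddY (sR R)
  a := fa (sR R)
  d := 12 * fk1 (sR R)
  hk0 := fk1 (sR R) * sR R / 4
  hk1 := fk1 (sR R) / 4
  M := (f_bdd (sR_pos R)).choose
  a_pos := by
    have h1 := fks_pos (sR_pos R) (sR_lt hR)
    have h2 : 0 < 1 - sR R ^ 2 := by nlinarith [sR_pos R, sR_lt hR]
    exact div_pos h1 h2
  d_pos := by have := fk1_pos (sR_pos R) (sR_lt hR); positivity
  hk0_nonneg := by have := fk1_pos (sR_pos R) (sR_lt hR); have := sR_pos R; positivity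
  hk1_nonneg := by have := fk1_pos (sR_pos R) (sR_lt hR); positivity
  hq := fun _ h h1 => fq_deriv (sR_pos R) h h1
  hdq := fun _ h h1 => fdq_deriv (sR_pos R) h h1
  hddq := fun _ h h1 => fddq_deriv (sR_pos R) h h1
  hY := fun _ h h1 => fY_deriv (sR_pos R) h h1
  hdY := fun _ h h1 => fdY_deriv (sR_pos R) h h1
  hddY := fun _ h h1 => fddY_deriv (sR_pos R) h h1
  bdd := (f_bdd (sR_pos R)).choose_spec
  ok := fun _ _ h h1 hy hyX => ok2 h h1 (sR_pos R) (sR_lt hR) hy (tanh_sq R ▸ hyX) _ _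
  okl := fun _ _ h h1 hy hy1 hyX => okl2 h h1 (sR_pos R) (sR_lt hR) hy hy1 (tanh_sq R ▸ hyX)
    (tanh_sq R)
  okr := fun _ _ h _ hy1 hyX => okr2 h (sR_pos R) (sR_lt hR) hy1 (tanh_sq R ▸ hyX)

theorem cert_strict (R : ℝ) (hR : 0 < R) : (cert R hR).Strict where
  ok_s := fun _ _ h h1 hy hyX => ok2_strict h h1 (sR_pos R) (sR_lt hR) hy (tanh_sq R ▸ hyX) _ _
  okl_s := fun _ _ h h1 hy hy1 hyX => okls h h1 (sR_pos R) (sR_lt hR) hy hy1 (tanh_sq R ▸ hyX)
  okr_s := fun _ _ h _ hy1 hyX => okr2_strict h (sR_pos R) (sR_lt hR) hy1 (tanh_sq R ▸ hyX)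

end

end Vale.Agent.Lib.P219.Ex
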