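import Vale.Agent.Lib.P219.K.Ex.Stat

/-! # P219: the charts `s = ρ w` and `w = ρ s`, positivity, and the elimination of `y` -/

namespace Vale.Agent.Lib.P219.Ex

open Vale.Agent.Lib.P219.Bern

noncomputable section

/-- `∑ c_j s^j` at `s = ρ w` (outer variable `w`, inner variable `ρ`) -/
def dg (l : List ℤ) : P2 :=
  List.rec (motive := fun _ => P2) []
    (fun c _ ih => [c] :: mp (fun r => (0 : ℤ) :: r) ih) l

theorem ev2_cons (w s : ℝ) (r : List ℤ) (N : P2) : ev2 w s (r :: N) = ev1 s r + w * ev2 w s N :=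
  rfl

theorem ev1_cons (s : ℝ) (c : ℤ) (l : List ℤ) : ev1 s (c :: l) = c + s * ev1 s l := rfl

theorem ev2_mp_zero (w s : ℝ) (N : P2) :
    ev2 w s (mp (fun r => (0 : ℤ) :: r) N) = s * ev2 w s N := by
  rw [mp_eq]
  induction N with
  | nil => simp [ev2, pev]
  | cons r N ih =>
    rw [List.map_cons, ev2_cons, ev2_cons, ev1_cons, ih]
    push_cast
    ring

theorem ev2_dg (w ρ : ℝ) (l : List ℤ) : ev2 w ρ (dg l) = ev1 (ρ * w) l := by
  induction l with
  | nil => simp [dg, ev2, ev1, pev]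
  | cons c l ih =>
    change ev2 w ρ ([c] :: mp (fun r => (0 : ℤ) :: r) (dg l)) = _
    rw [ev2_cons, ev2_mp_zero, ih, ev1_cons, ev1_cons]
    simp [ev1, pev]
    ring

/-- chart `s = ρ w` -/
def chI (N : P2) : P2 :=
  List.rec (motive := fun _ => P2) []
    (fun r _ ih => zadd RI.poly.add (dg r) ([] :: ih)) N

theorem ev2_chI (w ρ : ℝ) (N : P2) : ev2 w ρ (chI N) = ev2 w (ρ * w) N := by
  have h := isEv2 w ρ
  induction N with
  | nil => simp [chI, ev2, pev]
  | cons r N ih =>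
    change ev2 w ρ (R2.add (dg r) ([] :: chI N)) = _
    rw [h.add, ev2_dg, ev2_cons, ev2_cons, ih]
    simp [ev1, pev]

/-- chart `w = ρ s` (outer variable `s`, inner variable `ρ`) -/
def chII (N : P2) : P2 :=
  List.rec (motive := fun _ => P2) []
    (fun r _ ih => zadd RI.poly.add (mp (fun c => [c]) r)
      ([] :: mp (fun r => (0 : ℤ) :: r) ih)) N

theorem ev2_mp_sing (s ρ : ℝ) (r : List ℤ) : ev2 s ρ (mp (fun c => [c]) r) = ev1 s r := by
  rw [mp_eq]
  induction r with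
  | nil => simp [ev2, ev1, pev]
  | cons c r ih =>
    rw [List.map_cons, ev2_cons, ih, ev1_cons, ev1_cons]
    simp [ev1, pev]

theorem ev2_chII (s ρ : ℝ) (N : P2) : ev2 s ρ (chII N) = ev2 (ρ * s) s N := by
  have h := isEv2 s ρ
  induction N with
  | nil => simp [chII, ev2, pev]
  | cons r N ih =>
    change ev2 s ρ (R2.add (mp (fun c => [c]) r) ([] :: mp (fun r => (0 : ℤ) :: r) (chII N))) = _
    rw [h.add, ev2_mp_sing, ev2_cons, ev2_cons, ev2_mp_zero, ih]
    simp [ev1, pev]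
    ring

/-- polynomials in `m` (outermost), `w`, `s` -/
abbrev P3c := List (List (List ℤ))

theorem ev3_map {m w s w' s' : ℝ} {f : P2 → P2} (hf : ∀ N, ev2 w s (f N) = ev2 w' s' N) (P : P3c) :
    ev3 m w s (mp f P) = ev3 m w' s' P := by
  rw [mp_eq]
  induction P with
  | nil => simp [ev3, pev]
  | cons N P ih =>
    simp only [ev3, List.map_cons, pev, hf] at ih ⊢
    rw [ih]

/-- nonnegativity for `s ≤ w` -/
theorem posL {P : P3c} {K n1 n2 k : ℕ} {t : T3} (h : chk K n1 n2 k 1 t (mp chI P) = true)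
    {m w s : ℝ} (hm : 0 ≤ m) (hm1 : k * m ≤ 1) (hw : 0 < w) (hw1 : w ≤ 1) (hs : 0 ≤ s)
    (hsw : s ≤ w) : 0 ≤ ev3 m w s P := by
  have h1 := chk_sound K n1 n2 k 1 t _ h m w (s / w) hm hm1 hw.le (by simpa using hw1)
    (by positivity) ((div_le_one hw).2 hsw)
  rw [ev3_map (fun N => ev2_chI w (s / w) N), div_mul_cancel₀ s hw.ne'] at h1
  exact h1

/-- nonnegativity for `w ≤ s` -/
theorem posR {P : P3c} {K n1 n2 k : ℕ} {t : T3} (h : chk K n1 n2 k 1 t (mp chII P) = true)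
    {m w s : ℝ} (hm : 0 ≤ m) (hm1 : k * m ≤ 1) (hs : 0 < s) (hs1 : s ≤ 1) (hw : 0 ≤ w)
    (hws : w ≤ s) : 0 ≤ ev3 m w s P := by
  have h1 := chk_sound K n1 n2 k 1 t _ h m s (w / s) hm hm1 hs.le (by simpa using hs1)
    (by positivity) ((div_le_one hs).2 hws)
  rw [ev3_map (fun N => ev2_chII s (w / s) N), div_mul_cancel₀ w hs.ne'] at h1
  exact h1

/-- `U + y V ≥ 0` from the lower bound for `y` -/
theorem yelim_lo {U V y τ X : ℝ} (hτ : 0 < τ) (hX : 0 < X) (hy : 0 < y) (hyX : y ^ 2 * τ = X)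
    (hV : 0 ≤ V) (h : 0 ≤ (X + τ) * U + 2 * X * V) : 0 ≤ U + y * V := by
  have h1 : 2 * X ≤ y * (X + τ) := by
    have : y * (X + τ) - 2 * X = τ * y * (y - 1) ^ 2 := by rw [← hyX]; ring
    have h2 : 0 ≤ τ * y * (y - 1) ^ 2 := by positivity
    linarith
  have h3 : 0 ≤ (X + τ) * (U + y * V) := by
    have h4 : 2 * X * V ≤ y * (X + τ) * V := mul_le_mul_of_nonneg_right h1 hV
    calc (0 : ℝ) ≤ (X + τ) * U + 2 * X * V := h
      _ ≤ (X + τ) * U + y * (X + τ) * V := by linarith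
      _ = (X + τ) * (U + y * V) := by ring
  exact nonneg_of_mul_nonneg_right h3 (by linarith)

/-- `U + y V ≥ 0` from the upper bound for `y` -/
theorem yelim_hi {U V y τ X : ℝ} (hτ : 0 < τ) (hy : 0 < y) (hyX : y ^ 2 * τ = X)
    (hU : 0 ≤ U) (h : 0 ≤ 2 * τ * U + (τ + X) * V) : 0 ≤ U + y * V := by
  rcases le_or_gt 0 V with hV | hV
  · positivity
  have h1 : 2 * τ * y ≤ τ + X := by
    have : τ + X - 2 * τ * y = τ * (y - 1) ^ 2 := by rw [← hyX]; ring
    have h2 : 0 ≤ τ * (y - 1) ^ 2 := by positivity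
    linarith
  have h3 : 0 ≤ 2 * τ * (U + y * V) := by
    have h4 : (τ + X) * V ≤ 2 * τ * y * V := mul_le_mul_of_nonpos_right h1 hV.le
    calc (0 : ℝ) ≤ 2 * τ * U + (τ + X) * V := h
      _ ≤ 2 * τ * U + 2 * τ * y * V := by linarith
      _ = 2 * τ * (U + y * V) := by ring
  exact nonneg_of_mul_nonneg_right h3 (by linarith)

end

end Vale.Agent.Lib.P219.Ex
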