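import Vale.Agent.Lib.P219.K.Ex.Pol

/-! # P219: reflected polynomial expressions, positivity by the kernel checker -/

namespace Vale.Agent.Lib.P219.Ex

open Vale.Agent.Lib.P219.Bern

/-- polynomial expressions -/
inductive PE where
  | v : ℕ → PE
  | c : ℤ → PE
  | add : PE → PE → PE
  | mul : PE → PE → PE

instance : Add PE := ⟨PE.add⟩
instance : Mul PE := ⟨PE.mul⟩
instance : Sub PE := ⟨fun a b => PE.add a (PE.mul (PE.c (-1)) b)⟩
instance : Neg PE := ⟨fun b => PE.mul (PE.c (-1)) b⟩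
instance (n : ℕ) : OfNat PE n := ⟨PE.c (Int.ofNat n)⟩

def PE.pw (a : PE) (k : ℕ) : PE :=
  Nat.rec (motive := fun _ => PE) (PE.c 1) (fun _ ih => PE.mul a ih) k

instance : HPow PE ℕ PE := ⟨PE.pw⟩

noncomputable section

def PE.ev (ρ : ℕ → ℝ) (e : PE) : ℝ :=
  PE.rec (motive := fun _ => ℝ) (fun i => ρ i) (fun z => (z : ℝ)) (fun _ _ a b => a + b)
    (fun _ _ a b => a * b) e

theorem PE.ev_v (ρ : ℕ → ℝ) (i : ℕ) : (PE.v i).ev ρ = ρ i := rfl
theorem PE.ev_c (ρ : ℕ → ℝ) (z : ℤ) : (PE.c z).ev ρ = z := rfl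
theorem PE.ev_add (ρ : ℕ → ℝ) (a b : PE) : (a + b).ev ρ = a.ev ρ + b.ev ρ := rfl
theorem PE.ev_mul (ρ : ℕ → ℝ) (a b : PE) : (a * b).ev ρ = a.ev ρ * b.ev ρ := rfl
theorem PE.ev_sub (ρ : ℕ → ℝ) (a b : PE) : (a - b).ev ρ = a.ev ρ - b.ev ρ := by
  change a.ev ρ + ((-1 : ℤ) : ℝ) * b.ev ρ = _
  push_cast
  ring
theorem PE.ev_neg (ρ : ℕ → ℝ) (b : PE) : (-b).ev ρ = -b.ev ρ := by
  change ((-1 : ℤ) : ℝ) * b.ev ρ = _
  push_cast
  ring
theorem PE.ev_ofNat (ρ : ℕ → ℝ) (n : ℕ) : (OfNat.ofNat n : PE).ev ρ = n := by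
  change ((Int.ofNat n : ℤ) : ℝ) = _
  simp
theorem PE.ev_pow (ρ : ℕ → ℝ) (a : PE) (k : ℕ) : (a ^ k).ev ρ = a.ev ρ ^ k := by
  change (PE.pw a k).ev ρ = _
  induction k with
  | zero => change ((1 : ℤ) : ℝ) = _; simp
  | succ k ih =>
    change a.ev ρ * (PE.pw a k).ev ρ = _
    rw [ih, pow_succ']

/-- value in a ring of kernel polynomials -/
def PE.toP {α : Type} (R : Rg α) (ρ : ℕ → α) (e : PE) : α :=
  PE.rec (motive := fun _ => α) (fun i => ρ i) (fun z => R.ofI z) (fun _ _ a b => R.add a b)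
    (fun _ _ a b => R.mul a b) e

theorem PE.ev_toP {α : Type} {R : Rg α} {ε : α → ℝ} (h : IsEv R ε) (ρ : ℕ → α) (e : PE) :
    ε (e.toP R ρ) = e.ev (fun i => ε (ρ i)) := by
  induction e with
  | v i => rfl
  | c z => exact h.ofI z
  | add a b iha ihb =>
    change ε (R.add (a.toP R ρ) (b.toP R ρ)) = _
    rw [h.add, iha, ihb]
    rfl
  | mul a b iha ihb =>
    change ε (R.mul (a.toP R ρ) (b.toP R ρ)) = _
    rw [h.mul, iha, ihb]
    rfl

abbrev P3 := List (List (List ℤ))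

/-- substitution `s = w ρ` in one row -/
def rowl (r : List ℤ) : P2 :=
  List.rec (motive := fun _ => P2) [] (fun c _ ih => [c] :: mp (List.cons 0) ih) r

/-- substitution `s = w ρ` -/
def cl (P : P2) : P2 :=
  List.rec (motive := fun _ => P2) [] (fun r _ ih => R2.add (rowl r) ([] :: ih)) P

/-- substitution `w = s ρ`, the outer variable being `s` -/
def cr (P : P2) : P2 :=
  List.rec (motive := fun _ => P2) []
    (fun r _ ih => R2.add (mp (fun c => [c]) r) ([] :: mp (List.cons 0) ih)) P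

theorem ev2_cons (x y : ℝ) (r : List ℤ) (P : P2) : ev2 x y (r :: P) = ev1 y r + x * ev2 x y P := by
  simp [ev2, pev]

theorem ev2_nil (x y : ℝ) : ev2 x y [] = 0 := by simp [ev2, pev]

theorem ev1_nil (y : ℝ) : ev1 y [] = 0 := by simp [ev1, pev]

theorem ev1_cons (y : ℝ) (c : ℤ) (r : List ℤ) : ev1 y (c :: r) = c + y * ev1 y r := by
  simp [ev1, pev]

theorem ev2_mp_cons (x y : ℝ) (P : P2) : ev2 x y (mp (List.cons 0) P) = y * ev2 x y P := by
  rw [mp_eq]
  induction P with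
  | nil => simp [ev2_nil]
  | cons r P ih =>
    rw [List.map_cons, ev2_cons, ih, ev2_cons, ev1_cons]
    push_cast
    ring

theorem ev_rowl (x y : ℝ) (r : List ℤ) : ev2 x y (rowl r) = ev1 (x * y) r := by
  induction r with
  | nil => exact (ev2_nil x y).trans (ev1_nil _).symm
  | cons c r ih =>
    change ev2 x y ([c] :: mp (List.cons 0) (rowl r)) = _
    rw [ev2_cons, ev2_mp_cons, ih, ev1_cons, ev1_cons, ev1_nil]
    ring

theorem ev_cl (x y : ℝ) (P : P2) : ev2 x y (cl P) = ev2 x (x * y) P := by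
  induction P with
  | nil => exact (ev2_nil x y).trans (ev2_nil _ _).symm
  | cons r P ih =>
    change ev2 x y (R2.add (rowl r) ([] :: cl P)) = _
    rw [(isEv2 x y).add, ev_rowl, ev2_cons, ev2_cons, ev1_nil, ih, zero_add]

theorem ev2_mp_single (x y : ℝ) (r : List ℤ) : ev2 x y (mp (fun c => [c]) r) = ev1 x r := by
  rw [mp_eq]
  induction r with
  | nil => simp [ev2_nil, ev1_nil]
  | cons c r ih =>
    rw [List.map_cons, ev2_cons, ih, ev1_cons, ev1_cons, ev1_nil]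
    ring

theorem ev_cr (x y : ℝ) (P : P2) : ev2 x y (cr P) = ev2 (x * y) x P := by
  induction P with
  | nil => exact (ev2_nil x y).trans (ev2_nil _ _).symm
  | cons r P ih =>
    change ev2 x y (R2.add (mp (fun c => [c]) r) ([] :: mp (List.cons 0) (cr P))) = _
    rw [(isEv2 x y).add, ev2_mp_single, ev2_cons, ev2_cons, ev1_nil, ev2_mp_cons, ih]
    ring

theorem ev3_mp {f : P2 → P2} {x1 x2 x3 y2 y3 : ℝ} (hf : ∀ P, ev2 x2 x3 (f P) = ev2 y2 y3 P)
    (P : P3) : ev3 x1 x2 x3 (mp f P) = ev3 x1 y2 y3 P := by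
  rw [mp_eq]
  unfold ev3
  rw [List.map_map]
  congr 2
  funext Q
  exact hf Q

def x1P : P3 := [[], [[1]]]
def x2P : P3 := [[[], [1]]]
def x3P : P3 := [[[0, 1]]]

theorem ev_x1P (x1 x2 x3 : ℝ) : ev3 x1 x2 x3 x1P = x1 := by simp [ev3, ev2, ev1, pev, x1P]
theorem ev_x2P (x1 x2 x3 : ℝ) : ev3 x1 x2 x3 x2P = x2 := by simp [ev3, ev2, ev1, pev, x2P]
theorem ev_x3P (x1 x2 x3 : ℝ) : ev3 x1 x2 x3 x3P = x3 := by simp [ev3, ev2, ev1, pev, x3P]

/-- list access -/
def nth {α : Type} (d : α) (l : List α) (i : ℕ) : α :=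
  List.rec (motive := fun _ => ℕ → α) (fun _ => d)
    (fun a _ ih i => Nat.rec (motive := fun _ => α) a (fun i _ => ih i) i) l i

/-- atoms: `w, s, m`, then the polynomials of the list -/
def envP (L : List P2) (i : ℕ) : P3 :=
  nth [] (x2P :: x3P :: x1P :: mp (fun P => [P]) L) i

def env (L : List P2) (w s m : ℝ) (i : ℕ) : ℝ :=
  nth 0 (w :: s :: m :: L.map (ev2 w s)) i

theorem nth_map {α β : Type} (f : α → β) (d : α) (l : List α) (i : ℕ) :
    f (nth d l i) = nth (f d) (l.map f) i := by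
  induction l generalizing i with
  | nil => rfl
  | cons a l ih =>
    cases i with
    | zero => rfl
    | succ i => exact ih i

theorem ev_envP (w s m : ℝ) (L : List P2) (i : ℕ) :
    ev3 m w s (envP L i) = env L w s m i := by
  unfold envP env
  rw [nth_map (ev3 m w s), List.map_cons, List.map_cons, List.map_cons, mp_eq, List.map_map,
    ev_x1P, ev_x2P, ev_x3P]
  have e1 : ev3 m w s [] = 0 := by simp [ev3, pev]
  rw [e1]
  congr 5
  funext P
  change ev3 m w s [P] = ev2 w s P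
  simp [ev3, pev]

/-- the kernel check in the region `s ≤ w` -/
def chkl (K a b : ℕ) (t : T3) (L : List P2) (e : PE) : Bool :=
  chk K a b 1 1 t (mp cl (e.toP R3 (envP L)))

/-- the kernel check in the region `w ≤ s` -/
def chkr (K a b : ℕ) (t : T3) (L : List P2) (e : PE) : Bool :=
  chk K a b 1 1 t (mp cr (e.toP R3 (envP L)))

theorem ev_toP_envP (L : List P2) (e : PE) (w s m : ℝ) :
    ev3 m w s (e.toP R3 (envP L)) = e.ev (env L w s m) := by
  rw [PE.ev_toP (isEv3 m w s)]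
  congr 1
  funext i
  exact ev_envP w s m L i

theorem posl {K a b : ℕ} {t : T3} {L : List P2} {e : PE} (h : chkl K a b t L e = true)
    {w s m : ℝ} (hw : 0 < w) (hw1 : w ≤ 1) (hs : 0 ≤ s) (hsw : s ≤ w) (hm : 0 ≤ m) (hm1 : m ≤ 1) :
    0 ≤ e.ev (env L w s m) := by
  have h1 := chk_sound K a b 1 1 t _ h m w (s / w) hm (by simpa using hm1) hw.le
    (by simpa using hw1) (by positivity) ((div_le_one hw).2 hsw)
  rw [ev3_mp (y2 := w) (y3 := s) (fun P => by rw [ev_cl, mul_div_cancel₀ s hw.ne']),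
    ev_toP_envP] at h1
  exact h1

theorem posr {K a b : ℕ} {t : T3} {L : List P2} {e : PE} (h : chkr K a b t L e = true)
    {w s m : ℝ} (hs : 0 < s) (hs1 : s ≤ 1) (hw : 0 ≤ w) (hws : w ≤ s) (hm : 0 ≤ m) (hm1 : m ≤ 1) :
    0 ≤ e.ev (env L w s m) := by
  have h1 := chk_sound K a b 1 1 t _ h m s (w / s) hm (by simpa using hm1) hs.le
    (by simpa using hs1) (by positivity) ((div_le_one hs).2 hws)
  rw [ev3_mp (y2 := w) (y3 := s) (fun P => by rw [ev_cr, mul_div_cancel₀ w hs.ne']),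
    ev_toP_envP] at h1
  exact h1

end

end Vale.Agent.Lib.P219.Ex
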