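import Vale.Agent.Lib.P219.K.Ex.Ch

/-! # P219: the fields of the certificate as kernel polynomials -/

namespace Vale.Agent.Lib.P219.Ex

open Vale.Agent.Lib.P219.Bern

noncomputable section

/-- scaled values -/
structure Hv (α : Type) where
  w2 : α
  t : α
  x : α
  a : α
  q : α
  dq : α
  ddq : α
  dddq : α
  Y : α
  dY : α
  ddY : α
  dddY : α

def Hv.map {α β : Type} (f : α → β) (v : Hv α) : Hv β :=
  ⟨f v.w2, f v.t, f v.x, f v.a, f v.q, f v.dq, f v.ddq, f v.dddq, f v.Y, f v.dY, f v.ddY, f v.dddY⟩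

section gen
variable {α : Type} (R : Rg α) (v : Hv α)

/-- `q - Y` etc. -/
def ge : α := Sb R v.q v.Y
def gde : α := Sb R v.dq v.dY
def gdde : α := Sb R v.ddq v.ddY
def gddde : α := Sb R v.dddq v.dddY
/-- twice the values -/
def gA1 : α := R.add (R.mul v.w2 (ge R v)) (Im R 2 (gde R v))
def gt2 : α := Sb R (R.ofI 2) v.w2
def gKA : α := R.mul (gt2 R v) (ge R v)
def gB1 : α := Im R 2 v.dY
def gKB : α := R.mul (gt2 R v) v.Y
def gGB : α := R.mul v.w2 v.Y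
def gA13 : α := R.add (gA1 R v) (Im R 2 (gKA R v))
def gAA : α := R.add (Im R 2 v.a) (gA13 R v)
/-- `w² (1-w²)` -/
def gwx : α := R.mul v.w2 v.x
def gdA1 : α := R.add (Im R (-1) (R.mul (gwx R v) (ge R v))) (R.add (R.mul v.w2 (gde R v))
  (Im R 2 (gdde R v)))
def gdKA : α := R.add (R.mul (gwx R v) (ge R v)) (R.mul (gt2 R v) (gde R v))
def gdB1 : α := Im R 2 v.ddY
def gdKB : α := R.add (R.mul (gwx R v) v.Y) (R.mul (gt2 R v) v.dY)
def gdGB : α := R.add (Im R (-1) (R.mul (gwx R v) v.Y)) (R.mul v.w2 v.dY)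
/-- `w² (1-w²) (1-2w²)` -/
def gwxx : α := R.mul (gwx R v) (R.add (R.ofI 1) (Im R (-2) v.w2))
def gddA1 : α := R.add (R.mul (gwxx R v) (ge R v)) (R.add (Im R (-2) (R.mul (gwx R v) (gde R v)))
  (R.add (R.mul v.w2 (gdde R v)) (Im R 2 (gddde R v))))
def gddKA : α := R.add (Im R (-1) (R.mul (gwxx R v) (ge R v)))
  (R.add (Im R 2 (R.mul (gwx R v) (gde R v))) (R.mul (gt2 R v) (gdde R v)))
def gddB1 : α := Im R 2 v.dddY
def gddKB : α := R.add (Im R (-1) (R.mul (gwxx R v) v.Y))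
  (R.add (Im R 2 (R.mul (gwx R v) v.dY)) (R.mul (gt2 R v) v.ddY))
def gddGB : α := R.add (R.mul (gwxx R v) v.Y)
  (R.add (Im R (-2) (R.mul (gwx R v) v.dY)) (R.mul v.w2 v.ddY))

/-- `B1 - KB - 3(q-Y) + GB` -/
def gN : α := R.add (Sb R (gB1 R v) (gKB R v)) (R.add (Im R (-6) (ge R v)) (gGB R v))
def gdN : α := R.add (Sb R (gdB1 R v) (gdKB R v)) (R.add (Im R (-6) (gde R v)) (gdGB R v))
def gddN : α := R.add (Sb R (gddB1 R v) (gddKB R v)) (R.add (Im R (-6) (gdde R v)) (gddGB R v))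

/-- `4 τ P` -/
def hP : α := R.add (R.mul v.t (R.add (Im R 2 (gAA R v)) (R.add (gB1 R v)
  (R.add (Im R 2 (gKB R v)) (gGB R v))))) (R.mul v.x (gN R v))
def hdP : α := R.add (R.mul v.t (R.add (Im R 2 (R.add (gdA1 R v) (Im R 2 (gdKA R v))))
    (R.add (gdB1 R v) (R.add (Im R 2 (gdKB R v)) (gdGB R v)))))
  (R.add (R.mul v.x (gdN R v)) (R.mul (gwx R v) (gN R v)))
def hddP : α := R.add (R.mul v.t (R.add (Im R 2 (R.add (gddA1 R v) (Im R 2 (gddKA R v))))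
    (R.add (gddB1 R v) (R.add (Im R 2 (gddKB R v)) (gddGB R v)))))
  (R.add (R.mul v.x (gddN R v)) (R.add (Im R 2 (R.mul (gwx R v) (gdN R v)))
    (Im R (-1) (R.mul (gwxx R v) (gN R v)))))
/-- `4 τ Fw` -/
def hF : α := R.add (hdP R v) (R.mul (R.add (R.ofI 3) (Im R (-2) v.w2)) (hP R v))
def hi1 : α := R.add (hddP R v) (R.add (R.mul (R.add (R.ofI 7) (Im R (-6) v.w2)) (hdP R v))
  (R.mul (R.mul v.x (R.add (R.ofI 12) (Im R (-6) v.w2))) (hP R v)))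
def hi1p : α := R.add (hdP R v) (Im R 2 (R.mul v.x (hP R v)))
/-- `2 (KA - A1)` -/
def gU : α := Sb R (gKA R v) (gA1 R v)
/-- `2 (KA - A1 + KB - B1 - GB)` -/
def gR : α := R.add (gU R v) (Sb R (Sb R (gKB R v) (gB1 R v)) (gGB R v))
def hi4 : α := R.add (Im R 4 (hF R v)) (R.add (Im R 4 (R.mul (gwx R v) (gR R v)))
  (R.add (Im R (-6) (R.mul (R.mul v.w2 v.t) (gAA R v))) (Im R 3 (R.mul (gwx R v) (gU R v)))))
def hi4V : α := Im R 3 (R.mul (R.mul v.w2 v.t) (gU R v))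
/-- `4 τ D` -/
def gD : α := R.add (Im R 3 v.t) v.x
def gD2 : α := R.mul (gD R v) (gD R v)
def gE : α := R.add (gD2 R v) (Im R (-16) (R.mul v.x (R.mul v.x v.x)))
def hC : α := Im R 3 (R.mul (R.mul v.t (R.add (Im R 3 v.t) (Im R 5 v.x)))
  (R.add (R.mul (hP R v) (gD2 R v)) (R.mul (R.mul v.x (gR R v)) (gE R v))))
def hth : α := R.mul (R.mul (Sb R (Im R 2 (R.mul v.t (gAA R v))) (R.mul v.x (gU R v))) (gE R v))
  (gD2 R v)
def hi5U : α := Sb R (hC R v) (hth R v)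
def hi5V : α := R.add (hC R v) (R.mul (R.mul v.t (gU R v)) (R.mul (gE R v) (gD2 R v)))
/-- `(x + t) U + 2 x V` -/
def glo (U V : α) : α := R.add (R.mul (R.add v.x v.t) U) (Im R 2 (R.mul v.x V))
/-- `2 t U + (t + x) V` -/
def ghi (U V : α) : α := R.add (Im R 2 (R.mul v.t U)) (R.mul (R.add v.t v.x) V)

/-- `2 τ B = U + y V` with `m`-coefficients -/
def gBU (m1 b1 b2 b3 : α) : α := R.add (Im R (-6) (R.mul (R.mul v.x (ge R v)) m1))
  (R.mul v.t (R.add (R.mul (gB1 R v) b1) (R.add (R.mul (gKB R v) b2) (R.mul (gGB R v) b3))))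
def gBV (c0 c1 c2 c3 : α) : α := R.mul v.t (R.add (Im R 2 (R.mul v.a c0))
  (R.add (R.mul (gA1 R v) c1) (R.add (R.mul (gKA R v) c2) (Im R (-6) (R.mul v.Y c3)))))
/-- `4 τ dB = U + y V` -/
def gdBU (m1 b1 b2 b3 : α) : α := R.add
  (Im R (-6) (R.mul (R.mul v.x (R.add (R.mul v.w2 (ge R v)) (Im R 2 (gde R v)))) m1))
  (R.add (Im R 2 (R.mul v.t (R.add (R.mul (gdB1 R v) b1) (R.add (R.mul (gdKB R v) b2)
    (R.mul (gdGB R v) b3)))))
  (Im R (-1) (R.mul (R.mul v.t v.w2) (R.add (R.mul (gB1 R v) b1) (R.add (R.mul (gKB R v) b2)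
    (R.mul (gGB R v) b3))))))
def gdBV (c1 c2 c3 : α) : α := Im R 2 (R.mul v.t (R.add (R.mul (gdA1 R v) c1)
  (R.add (R.mul (gdKA R v) c2) (Im R (-6) (R.mul v.dY c3)))))
def gHU (m1 b1 b2 b3 : α) : α := R.add (gdBU R v m1 b1 b2 b3)
  (Im R 3 (R.mul (gt2 R v) (gBU R v m1 b1 b2 b3)))
def gHV (c0 c1 c2 c3 : α) : α := R.add (gdBV R v c1 c2 c3)
  (Im R 3 (R.mul (gt2 R v) (gBV R v c0 c1 c2 c3)))

end gen

/-- real instance -/
def RR : Rg ℝ := ⟨fun a b => a + b, fun a b => a * b, 0, fun z => (z : ℝ)⟩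

theorem homs {α : Type} {R : Rg α} {e : α → ℝ} (h : IsEv R e) (v : Hv α) :
    e (hP R v) = hP RR (v.map e) ∧ e (gA13 R v) = gA13 RR (v.map e) ∧
    e (gAA R v) = gAA RR (v.map e) ∧ e (hi1 R v) = hi1 RR (v.map e) ∧
    e (hi1p R v) = hi1p RR (v.map e) ∧ e (gR R v) = gR RR (v.map e) ∧
    e (gU R v) = gU RR (v.map e) ∧ e (hi4 R v) = hi4 RR (v.map e) ∧
    e (hi4V R v) = hi4V RR (v.map e) ∧ e (hi5U R v) = hi5U RR (v.map e) ∧
    e (hC R v) = hC RR (v.map e) ∧ e (hi5V R v) = hi5V RR (v.map e) := by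
  have hS : ∀ a b, e (Sb R a b) = Sb RR (e a) (e b) := fun a b => by
    simp only [Sb, h.add, h.mul, h.ofI, RR]
  have hI : ∀ k a, e (Im R k a) = Im RR k (e a) := fun k a => by
    simp only [Im, h.mul, h.ofI, RR]
  have hA : ∀ a b, e (R.add a b) = RR.add (e a) (e b) := fun a b => by rw [h.add]; rfl
  have hM : ∀ a b, e (R.mul a b) = RR.mul (e a) (e b) := fun a b => by rw [h.mul]; rfl
  have hO : ∀ k, e (R.ofI k) = RR.ofI k := fun k => by rw [h.ofI]; rfl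
  refine ⟨?_, ?_, ?_, ?_, ?_, ?_, ?_, ?_, ?_, ?_, ?_, ?_⟩ <;>
  simp only [hP, gA13, gAA, hi1, hi1p, gR, gU, hi4, hi4V, hi5U, hC, hi5V, hth, gE, gD2, gD, hF,
    hddP, hdP, gddN, gdN, gN, gddGB, gddKB, gddB1, gddKA, gddA1, gwxx, gdGB, gdKB, gdB1, gdKA,
    gdA1, gwx, gGB, gKB, gB1, gKA, gt2, gA1, gddde, gdde, gde, ge, hS, hI, hA, hM, hO, Hv.map]

end

end Vale.Agent.Lib.P219.Ex
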