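import Vale.Agent.Lib.P219.K.Ex.Hat

/-! # P219: kernel checks of the fields of `OKl2` -/

namespace Vale.Agent.Lib.P219.Ex

open Vale.Agent.Lib.P219.Bern

noncomputable section

/-- `8 (s+w)^9 (1+w) N` -/
def ht9 (N : P2) : P2 := R2.mul (R2.ofI 8) (R2.mul (pw R2 pSW 9) (R2.mul pU N))

theorem ev_ht9 (N : P2) (w s : ℝ) :
    ev2 w s (ht9 N) = 8 * (s + w) ^ 9 * (1 + w) * ev2 w s N := by
  have h := isEv2 w s
  rw [ht9, h.mul, h.mul, h.mul, h.ofI, h.pw, ev_pSW, ev_pU]
  push_cast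
  ring

/-- the scaled values of the explicit family -/
def vv : Hv P2 := ⟨pW2, pT, pX, ht9 nks, ht 8 4 nq0, ht 4 3 nq1, ht 2 2 nq2, ht 1 1 nq3,
  ht 8 3 nY0, ht 4 2 nY1, ht 2 1 nY2, ht 1 0 nY3⟩

def lchk (E : P2) : Bool := chk 300 34 41 1 1 (.base .leaf) (mp chI [E])

theorem lchk_sound {E : P2} (h : lchk E = true) {w s : ℝ} (hw : 0 < w) (hw1 : w ≤ 1) (hs : 0 ≤ s)
    (hsw : s ≤ w) : 0 ≤ ev2 w s E := by
  have h1 := posL h (m := 0) le_rfl (by norm_num) hw hw1 hs hsw
  simpa [ev3, pev] using h1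

def lneg (E : P2) : P2 := Im R2 (-1) E

theorem lc1 : lchk (gA13 R2 vv) = true := by decide +kernel
theorem lc2 : lchk (hP R2 vv) = true := by decide +kernel
theorem lc3 : lchk (hi1 R2 vv) = true := by decide +kernel
theorem lc4 : lchk (hi1p R2 vv) = true := by decide +kernel
theorem lc5 : lchk (gR R2 vv) = true := by decide +kernel
theorem lc6 : lchk (gAA R2 vv) = true := by decide +kernel
theorem lc7 : lchk (ghi R2 vv (gAA R2 vv) (lneg (gU R2 vv))) = true := by decide +kernel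
theorem lc8 : lchk (hi4 R2 vv) = true := by decide +kernel
theorem lc9 : lchk (ghi R2 vv (hi4 R2 vv) (hi4V R2 vv)) = true := by decide +kernel
theorem lc10 : lchk (hC R2 vv) = true := by decide +kernel
theorem lc11 : lchk (glo R2 vv (hi5U R2 vv) (hC R2 vv)) = true := by decide +kernel
theorem lc12 : lchk (hi5V R2 vv) = true := by decide +kernel
theorem lc13 : lchk (glo R2 vv (hi5U R2 vv) (hi5V R2 vv)) = true := by decide +kernel

end

end Vale.Agent.Lib.P219.Ex
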