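import Vale.Agent.Lib.P219.K.Ex.Lchk

/-! # P219: kernel checks of the strict fields of `OKls` -/

namespace Vale.Agent.Lib.P219.Ex

open Vale.Agent.Lib.P219.Bern

noncomputable section

/-- `E - s^i (1-w)^j` -/
def lsm (E : P2) (i j : ℕ) : P2 :=
  R2.add E (R2.mul (R2.ofI (-1)) (R2.mul (pw R2 pS i) (pw R2 pM j)))

theorem ev_lsm (E : P2) (i j : ℕ) (w s : ℝ) :
    ev2 w s (lsm E i j) = ev2 w s E - s ^ i * (1 - w) ^ j := by
  have h := isEv2 w s
  rw [lsm, h.add, h.mul, h.mul, h.ofI, h.pw, h.pw, ev_pS, ev_pM]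
  push_cast
  ring

theorem lchk_pos {E : P2} {i j : ℕ} (h : lchk (lsm E i j) = true) {w s : ℝ} (hw : 0 < w)
    (hw1 : w < 1) (hs : 0 < s) (hsw : s ≤ w) : 0 < ev2 w s E := by
  have h1 := lchk_sound h hw hw1.le hs.le hsw
  rw [ev_lsm] at h1
  have h2 : 0 < s ^ i * (1 - w) ^ j := mul_pos (pow_pos hs _) (pow_pos (by linarith) _)
  linarith

theorem ld5 : lchk (lsm (gR R2 vv) 19 5) = true := by decide +kernel
theorem ld8 : lchk (lsm (hi4 R2 vv) 21 7) = true := by decide +kernel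
theorem ld9 : lchk (lsm (ghi R2 vv (hi4 R2 vv) (hi4V R2 vv)) 23 7) = true := by decide +kernel
theorem ld11 : lchk (lsm (glo R2 vv (hi5U R2 vv) (hC R2 vv)) 31 7) = true := by decide +kernel
theorem ld13 : lchk (lsm (glo R2 vv (hi5U R2 vv) (hi5V R2 vv)) 31 7) = true := by decide +kernel

end

end Vale.Agent.Lib.P219.Ex
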