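import Vale.Agent.Lib.P219.K.Ex.Ok2R

/-! # P219: the conditions `OK2` for the explicit family -/

namespace Vale.Agent.Lib.P219.Ex

open Vale.Agent.Lib.P219.Bern Vale.Agent.Lib.P219.Lin

set_option linter.unusedSimpArgs false

noncomputable section

namespace O2

def ubr (w s M p r : ℝ) : ℝ :=
  (1 - s * s) * (2 * (M * ((1 - p) * (2 * xdY w s) + (2 + p) * ((2 - w * w) * xY w s)
    + r * (w * w * xY w s)))) - 12 * (M * ((1 - w * w) * (xq w s - xY w s)))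

def vbr (w s M p : ℝ) : ℝ :=
  8 * xa w s + (4 - 2 * (M * M) + 4 * p) * (w * w * (xq w s - xY w s) + 2 * (xdq w s - xdY w s))
    + (8 + 2 * (M * M) - 4 * p) * ((2 - w * w) * (xq w s - xY w s)) - 24 * (p * xY w s)

/-- hatted data -/
def hv (w s y ddq ddY : ℝ) : Pv :=
  ⟨w, y, xa w s, xq w s, xdq w s, ddq, xY w s, xdY w s, ddY⟩

theorem b_id {w s y : ℝ} (h : y ^ 2 * (1 - s ^ 2) = 1 - w ^ 2) (ddq ddY m p r : ℝ) :
    8 * (1 - s * s) * (hv w s y ddq ddY).B m p r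
      = ubr w s (2 * m) p r + y * ((1 - s * s) * vbr w s (2 * m) p) := by
  simp only [hv, Pv.B, Pv.A1, Pv.KA, Pv.B1, Pv.KB, Pv.GB, ubr, vbr]
  linear_combination (-24 * m * (xq w s - xY w s)) * h

section fields

variable {w s y : ℝ} (hw : 0 < w) (hw1 : w < 1) (hs : 0 < s) (hs1 : s < 1) (hy : 0 < y)
  (h : y ^ 2 * (1 - s ^ 2) = 1 - w ^ 2) (ddq ddY : ℝ)
include hw hw1 hs hs1 hy h

theorem f_n1a {m : ℝ} (hm : 0 ≤ m) (hm1 : m ≤ 1) :
    0 ≤ (hv w s y ddq ddY).B m (m ^ 2) (1 - m) + m ^ 2 * (w ^ 2 / 2 * (hv w s y ddq ddY).E) := by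
  have hτ : 0 < 1 - s * s := by nlinarith
  have hX : 0 < 1 - w * w := by nlinarith
  have h' : y ^ 2 * (1 - s * s) = 1 - w * w := by linarith
  have hm2 : env L2 w s m 2 = m := rfl
  have h1 := pos2 n1a1_ck hw hw1 hs hs1 hm hm1
  simp only [n1a1, lob, D0, D1, D2, D3, D4, D5, D6, D7, D8, D9, O2.m, PE.ev_add, PE.ev_mul,
    PE.ev_sub, PE.ev_c, PE.ev_v, h_d0, h_d1, h_d2, h_d3, h_d4, h_d5, h_d6, h_d7, h_d9, hm2] at h1
  have h2 := pos2 n1a2_ck hw hw1 hs hs1 hm hm1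
  simp only [n1a2, vb, V0, V1, V2, V3, V4, V5, O2.m, PE.ev_add, PE.ev_mul, PE.ev_sub, PE.ev_c,
    PE.ev_v, h_v0, h_v1, h_v2, h_v3, h_v4, h_v5, hm2] at h2
  have h3 := yel (U := ubr w s (2 * m) (m ^ 2) (1 - m) + 4 * ((1 - s * s) * (m * m * (w * w * xY w s))))
    (V := (1 - s * s) * (vbr w s (2 * m) (m ^ 2) + 4 * (m * m * (w * w * (xq w s - xY w s)))))
    hy hτ hX h' (h1.trans_eq (by simp only [ubr, vbr]; push_cast; ring))
    (mul_nonneg hτ.le (h2.trans_eq (by simp only [vbr]; push_cast; ring)))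
  refine nn_of (c := 8 * (1 - s * s)) (by linarith) h3 ?_
  have hb := b_id h ddq ddY m (m ^ 2) (1 - m)
  simp only [hv, Pv.E] at hb ⊢
  linear_combination (-1) * hb

theorem f_n1b {m : ℝ} (hm : 1 / 2 ≤ m) (hm1 : m ≤ 1) :
    0 ≤ (hv w s y ddq ddY).B m (2 * m - 1) 0
      + (2 * m - 1) * (w ^ 2 / 2 * (hv w s y ddq ddY).E)
      + (hv w s y ddq ddY).GB * ((1 - m) * m / 2 + (1 - m) ^ 3) := by
  have hτ : 0 < 1 - s * s := by nlinarith
  have hX : 0 < 1 - w * w := by nlinarith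
  have h' : y ^ 2 * (1 - s * s) = 1 - w * w := by linarith
  have hm2 : env L2 w s (2 * m - 1) 2 = 2 * m - 1 := rfl
  have h1 := pos2 (m := 2 * m - 1) n1b1_ck hw hw1 hs hs1 (by linarith) (by linarith)
  simp only [n1b1, lob, D0, D1, D2, D3, D4, D5, D6, D7, D8, D9, O2.m, PE.ev_add, PE.ev_mul,
    PE.ev_sub, PE.ev_c, PE.ev_v, PE.ev_pow, h_d0, h_d1, h_d2, h_d3, h_d4, h_d5, h_d6, h_d7, h_d9,
    hm2] at h1
  have h2 := pos2 (m := 2 * m - 1) n1b2_ck hw hw1 hs hs1 (by linarith) (by linarith)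
  simp only [n1b2, vb, V0, V1, V2, V3, V4, V5, O2.m, PE.ev_add, PE.ev_mul, PE.ev_sub, PE.ev_c,
    PE.ev_v, h_v0, h_v1, h_v2, h_v3, h_v4, h_v5, hm2] at h2
  have h3 := yel (U := 2 * ubr w s (2 * m) (2 * m - 1) 0
      + 8 * ((2 * m - 1) * ((1 - s * s) * (w * w * xY w s)))
      + (1 - (2 * m - 1) * (2 * m - 1) + (1 - (2 * m - 1)) ^ 3) * ((1 - s * s) * (w * w * xY w s)))
    (V := (1 - s * s) * (2 * vbr w s (2 * m) (2 * m - 1)
      + 8 * ((2 * m - 1) * (w * w * (xq w s - xY w s)))))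
    hy hτ hX h' (h1.trans_eq (by simp only [ubr, vbr]; push_cast; ring))
    (mul_nonneg hτ.le (h2.trans_eq (by simp only [vbr]; push_cast; ring)))
  refine nn_of (c := 16 * (1 - s * s)) (by linarith) h3 ?_
  have hb := b_id h ddq ddY m (2 * m - 1) 0
  simp only [hv, Pv.E, Pv.GB] at hb ⊢
  linear_combination (-2) * hb

theorem f_p2a {m : ℝ} (hm : 0 ≤ m) (hm1 : m ≤ 1) :
    0 ≤ (hv w s y ddq ddY).B m (m ^ 2) (1 - m ^ 2) + m ^ 2 * (xhk w s * y) := by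
  have hτ : 0 < 1 - s * s := by nlinarith
  have hX : 0 < 1 - w * w := by nlinarith
  have h' : y ^ 2 * (1 - s * s) = 1 - w * w := by linarith
  have hm2 : env L2 w s m 2 = m := rfl
  have h1 := pos2 p2a1_ck hw hw1 hs hs1 hm hm1
  simp only [p2a1, lob, D0, D1, D2, D3, D4, D5, D6, D7, D8, D9, O2.m, PE.ev_add, PE.ev_mul,
    PE.ev_sub, PE.ev_c, PE.ev_v, h_d0, h_d1, h_d2, h_d3, h_d4, h_d5, h_d6, h_d7, h_d8, h_d9,
    hm2] at h1
  have h2 := pos2 p2a2_ck hw hw1 hs hs1 hm hm1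
  simp only [p2a2, vb, V0, V1, V2, V3, V4, V5, O2.m, PE.ev_add, PE.ev_mul, PE.ev_sub, PE.ev_c,
    PE.ev_v, h_v0, h_v1, h_v2, h_v3, h_v4, h_v5, hm2] at h2
  have h3 := yel (U := ubr w s (2 * m) (m ^ 2) (1 - m ^ 2))
    (V := (1 - s * s) * (vbr w s (2 * m) (m ^ 2) + 8 * (m * m * xhk w s)))
    hy hτ hX h' (h1.trans_eq (by simp only [ubr, vbr]; push_cast; ring))
    (mul_nonneg hτ.le (h2.trans_eq (by simp only [vbr]; push_cast; ring)))
  refine nn_of (c := 8 * (1 - s * s)) (by linarith) h3 ?_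
  have hb := b_id h ddq ddY m (m ^ 2) (1 - m ^ 2)
  linear_combination (-1) * hb

theorem f_p2b {m : ℝ} (hm : 1 / 2 ≤ m) (hm1 : m ≤ 1) :
    0 ≤ (hv w s y ddq ddY).B m (2 * m - 1) (2 * m * (1 - m)) + (2 * m - 1) * (xhk w s * y) := by
  have hτ : 0 < 1 - s * s := by nlinarith
  have hX : 0 < 1 - w * w := by nlinarith
  have h' : y ^ 2 * (1 - s * s) = 1 - w * w := by linarith
  have hm2 : env L2 w s (2 * m - 1) 2 = 2 * m - 1 := rfl
  have h1 := pos2 (m := 2 * m - 1) p2b1_ck hw hw1 hs hs1 (by linarith) (by linarith)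
  simp only [p2b1, lob, D0, D1, D2, D3, D4, D5, D6, D7, D8, D9, O2.m, PE.ev_add, PE.ev_mul,
    PE.ev_sub, PE.ev_c, PE.ev_v, PE.ev_pow, h_d0, h_d1, h_d2, h_d3, h_d4, h_d5, h_d6, h_d7, h_d8,
    h_d9, hm2] at h1
  have h2 := pos2 (m := 2 * m - 1) p2b2_ck hw hw1 hs hs1 (by linarith) (by linarith)
  simp only [p2b2, vb, V0, V1, V2, V3, V4, V5, O2.m, PE.ev_add, PE.ev_mul, PE.ev_sub, PE.ev_c,
    PE.ev_v, h_v0, h_v1, h_v2, h_v3, h_v4, h_v5, hm2] at h2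
  have h3 := yel (U := 2 * ubr w s (2 * m) (2 * m - 1) (2 * m * (1 - m)))
    (V := (1 - s * s) * (2 * vbr w s (2 * m) (2 * m - 1) + 16 * ((2 * m - 1) * xhk w s)))
    hy hτ hX h' (h1.trans_eq (by simp only [ubr, vbr]; push_cast; ring))
    (mul_nonneg hτ.le (h2.trans_eq (by simp only [vbr]; push_cast; ring)))
  refine nn_of (c := 16 * (1 - s * s)) (by linarith) h3 ?_
  have hb := b_id h ddq ddY m (2 * m - 1) (2 * m * (1 - m))
  linear_combination (-2) * hb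

theorem f_p3a {m : ℝ} (hm : 0 ≤ m) (hm1 : m ≤ 1 / 2) :
    0 ≤ (hv w s y ddq ddY).B m 0 0 + (hv w s y ddq ddY).GB / 2 := by
  have hτ : 0 < 1 - s * s := by nlinarith
  have hX : 0 < 1 - w * w := by nlinarith
  have h' : y ^ 2 * (1 - s * s) = 1 - w * w := by linarith
  have hm2 : env L2 w s (2 * m) 2 = 2 * m := rfl
  have h1 := pos2 (m := 2 * m) p3a1_ck hw hw1 hs hs1 (by linarith) (by linarith)
  simp only [p3a1, lob, D0, D1, D2, D3, D4, D5, D6, D7, D8, D9, O2.m, PE.ev_add, PE.ev_mul,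
    PE.ev_sub, PE.ev_c, PE.ev_v, PE.ev_pow, h_d0, h_d1, h_d2, h_d3, h_d4, h_d5, h_d6, h_d7, h_d8,
    h_d9, hm2] at h1
  have h2 := pos2 (m := 2 * m) p3a2_ck hw hw1 hs hs1 (by linarith) (by linarith)
  simp only [p3a2, vb, V0, V1, V2, V3, V4, V5, O2.m, PE.ev_add, PE.ev_mul, PE.ev_sub, PE.ev_c,
    PE.ev_v, h_v0, h_v1, h_v2, h_v3, h_v4, h_v5, hm2] at h2
  have h3 := yel (U := ubr w s (2 * m) 0 0 + 2 * ((1 - s * s) * (w * w * xY w s)))
    (V := (1 - s * s) * (vbr w s (2 * m) 0))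
    hy hτ hX h' (h1.trans_eq (by simp only [ubr, vbr]; push_cast; ring))
    (mul_nonneg hτ.le (h2.trans_eq (by simp only [vbr]; push_cast; ring)))
  refine nn_of (c := 8 * (1 - s * s)) (by linarith) h3 ?_
  have hb := b_id h ddq ddY m 0 0
  simp only [hv, Pv.E, Pv.GB] at hb ⊢
  linear_combination (-1) * hb

theorem f_p3b {m : ℝ} (hm : 0 ≤ m) (hm1 : m ≤ 1) :
    0 ≤ y * (xa w s + (hv w s y ddq ddY).A1 * (1 - m ^ 2 / 2)
        + (hv w s y ddq ddY).KA * (2 + m ^ 2 / 2)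
        + 3 / 2 * (y * (xq w s - xY w s) * (1 - m)) + 3 * xY w s * m - xhk w s)
      + (hv w s y ddq ddY).B1 * (m ^ 2 + m - 1) / 2
      - (hv w s y ddq ddY).KB * (1 + (1 - m) ^ 2) / 2 + (hv w s y ddq ddY).GB / 2 := by
  have hτ : 0 < 1 - s * s := by nlinarith
  have hX : 0 < 1 - w * w := by nlinarith
  have h' : y ^ 2 * (1 - s * s) = 1 - w * w := by linarith
  have hm2 : env L2 w s m 2 = m := rfl
  have h1 := pos2 p3b1_ck hw hw1 hs hs1 hm hm1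
  simp only [p3b1, lob, D0, D1, D2, D3, D4, D5, D6, D7, D8, D9, O2.m, PE.ev_add, PE.ev_mul,
    PE.ev_sub, PE.ev_c, PE.ev_v, PE.ev_pow, h_d0, h_d1, h_d2, h_d3, h_d4, h_d5, h_d6, h_d7, h_d8,
    h_d9, hm2] at h1
  have h2 := pos2 p3b2_ck hw hw1 hs hs1 hm hm1
  simp only [p3b2, E0, E1, E2, E3, E4, E5, E6, E7, E8, O2.m, PE.ev_add, PE.ev_mul, PE.ev_sub,
    PE.ev_c, PE.ev_v, PE.ev_pow, h_e0, h_e1, h_e2, h_e3, h_e4, h_e5, h_e6, h_e7, h_e8, hm2] at h2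
  have h3 := yel2 (U := 6 * ((1 - m) * ((1 - w * w) * (xq w s - xY w s)))
      + (1 - s * s) * ((m * m + m - 1) * (2 * xdY w s)
        - (1 + (1 - m) ^ 2) * ((2 - w * w) * xY w s) + w * w * xY w s))
    (V := (1 - s * s) * (4 * xa w s
      + (2 - m * m) * (w * w * (xq w s - xY w s) + 2 * (xdq w s - xdY w s))
      + (4 + m * m) * ((2 - w * w) * (xq w s - xY w s)) + 12 * (m * xY w s) - 4 * xhk w s))
    hy hτ hX h' (h1.trans_eq (by push_cast; ring))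
    ((mul_nonneg hτ.le h2).trans_eq (by push_cast; ring))
  refine nn_of (c := 4 * (1 - s * s)) (by linarith) h3 ?_
  simp only [hv, Pv.A1, Pv.KA, Pv.B1, Pv.KB, Pv.GB]
  linear_combination (-6 * (1 - m) * (xq w s - xY w s)) * h

theorem f_p3b2 {m : ℝ} (hm : 0 ≤ m) (hm1 : m ≤ 1) :
    0 ≤ y * (xa w s + (hv w s y ddq ddY).A1 * (1 - m ^ 2 / 2)
        + (hv w s y ddq ddY).KA * (2 + m ^ 2 / 2)
        + 3 / 2 * (y * (xq w s - xY w s) * (1 - m)) + 3 * xY w s * m - xhk w s)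
      + (hv w s y ddq ddY).B1 * (m ^ 2 + m - 1) / 2
      - (hv w s y ddq ddY).KB * (1 + (1 - m) ^ 2) / 2 + (hv w s y ddq ddY).GB / 2
      + y * ((hv w s y ddq ddY).KA - (hv w s y ddq ddY).A1) / 2
      + m * ((hv w s y ddq ddY).KB - (hv w s y ddq ddY).B1) / 2 := by
  have hτ : 0 < 1 - s * s := by nlinarith
  have hX : 0 < 1 - w * w := by nlinarith
  have h' : y ^ 2 * (1 - s * s) = 1 - w * w := by linarith
  have hm2 : env L2 w s m 2 = m := rfl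
  have h1 := pos2 p3c1_ck hw hw1 hs hs1 hm hm1
  simp only [p3c1, p3b1, lob, D0, D1, D2, D3, D4, D5, D6, D7, D8, D9, O2.m, PE.ev_add, PE.ev_mul,
    PE.ev_sub, PE.ev_c, PE.ev_v, PE.ev_pow, h_d0, h_d1, h_d2, h_d3, h_d4, h_d5, h_d6, h_d7, h_d8,
    h_d9, hm2] at h1
  have h2 := pos2 p3c2_ck hw hw1 hs hs1 hm hm1
  simp only [p3c2, vb, V0, V1, V2, V3, V4, V5, O2.m, PE.ev_add, PE.ev_mul, PE.ev_sub, PE.ev_c,
    PE.ev_v, h_v0, h_v1, h_v2, h_v3, h_v4, h_v5, hm2] at h2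
  have h3 := yel (U := 6 * ((1 - m) * ((1 - w * w) * (xq w s - xY w s)))
      + (1 - s * s) * ((m * m + m - 1) * (2 * xdY w s)
        - (1 + (1 - m) ^ 2) * ((2 - w * w) * xY w s) + w * w * xY w s)
      + m * ((1 - s * s) * ((2 - w * w) * xY w s - 2 * xdY w s)))
    (V := (1 - s * s) * (4 * xa w s
      + (2 - m * m) * (w * w * (xq w s - xY w s) + 2 * (xdq w s - xdY w s))
      + (4 + m * m) * ((2 - w * w) * (xq w s - xY w s)) + 12 * (m * xY w s) - 4 * xhk w s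
      + ((2 - w * w) * (xq w s - xY w s)
        - (w * w * (xq w s - xY w s) + 2 * (xdq w s - xdY w s)))))
    hy hτ hX h' (h1.trans_eq (by push_cast; ring))
    (mul_nonneg hτ.le (h2.trans_eq (by push_cast; ring)))
  refine nn_of (c := 4 * (1 - s * s)) (by linarith) h3 ?_
  simp only [hv, Pv.A1, Pv.KA, Pv.B1, Pv.KB, Pv.GB]
  linear_combination (-6 * (1 - m) * (xq w s - xY w s)) * h

theorem f_p1b : 0 ≤ y * (xa w s + 3 * (hv w s y ddq ddY).KA) + 3 * (hv w s y ddq ddY).KB := by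
  have hτ : 0 < 1 - s * s := by nlinarith
  have hX : 0 < 1 - w * w := by nlinarith
  have h' : y ^ 2 * (1 - s * s) = 1 - w * w := by linarith
  have h1 := pos2 p1b1_ck (m := 0) hw hw1 hs hs1 le_rfl zero_le_one
  simp only [p1b1, lob, D0, D1, D2, D3, D4, D5, D6, D7, D8, D9, O2.m, PE.ev_add, PE.ev_mul,
    PE.ev_sub, PE.ev_c, PE.ev_v, PE.ev_pow, h_d0, h_d1, h_d2, h_d3, h_d4, h_d5, h_d6, h_d7, h_d8,
    h_d9] at h1
  have h2 := pos2 p1b2_ck (m := 0) hw hw1 hs hs1 le_rfl zero_le_one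
  simp only [p1b2, vb, V0, V1, V2, V3, V4, V5, O2.m, PE.ev_add, PE.ev_mul, PE.ev_sub, PE.ev_c,
    PE.ev_v, h_v0, h_v1, h_v2, h_v3, h_v4, h_v5] at h2
  have h3 := yel (U := (1 - s * s) * (3 * ((2 - w * w) * xY w s)))
    (V := (1 - s * s) * (2 * xa w s + 3 * ((2 - w * w) * (xq w s - xY w s))))
    hy hτ hX h' (h1.trans_eq (by push_cast; ring))
    (mul_nonneg hτ.le (h2.trans_eq (by push_cast; ring)))
  refine nn_of (c := 2 * (1 - s * s)) (by linarith) h3 ?_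
  simp only [hv, Pv.A1, Pv.KA, Pv.B1, Pv.KB, Pv.GB]
  ring

theorem f_p1p : (hv w s y ddq ddY).B1 ≤ y * (xa w s + (hv w s y ddq ddY).A1
    + 2 * (hv w s y ddq ddY).KA) + (hv w s y ddq ddY).KB + (hv w s y ddq ddY).GB := by
  have hτ : 0 < 1 - s * s := by nlinarith
  have hX : 0 < 1 - w * w := by nlinarith
  have h' : y ^ 2 * (1 - s * s) = 1 - w * w := by linarith
  have h1 := pos2 p1p1_ck (m := 0) hw hw1 hs hs1 le_rfl zero_le_one
  simp only [p1p1, lob, D0, D1, D2, D3, D4, D5, D6, D7, D8, D9, O2.m, PE.ev_add, PE.ev_mul,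
    PE.ev_sub, PE.ev_c, PE.ev_v, PE.ev_pow, h_d0, h_d1, h_d2, h_d3, h_d4, h_d5, h_d6, h_d7, h_d8,
    h_d9] at h1
  have h2 := pos2 p1a2_ck (m := 0) hw hw1 hs hs1 le_rfl zero_le_one
  simp only [p1a2, vb, V0, V1, V2, V3, V4, V5, O2.m, PE.ev_add, PE.ev_mul, PE.ev_sub, PE.ev_c,
    PE.ev_v, h_v0, h_v1, h_v2, h_v3, h_v4, h_v5] at h2
  have h3 := yel (U := (1 - s * s) * ((2 - w * w) * xY w s + w * w * xY w s - 2 * xdY w s))
    (V := (1 - s * s) * (2 * xa w s + (w * w * (xq w s - xY w s) + 2 * (xdq w s - xdY w s))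
      + 2 * ((2 - w * w) * (xq w s - xY w s))))
    hy hτ hX h' (h1.trans_eq (by push_cast; ring))
    (mul_nonneg hτ.le (h2.trans_eq (by push_cast; ring)))
  refine sub_nonneg.1 (nn_of (c := 2 * (1 - s * s)) (by linarith) h3 ?_)
  simp only [hv, Pv.A1, Pv.KA, Pv.B1, Pv.KB, Pv.GB]
  ring

theorem f_p1m : -(hv w s y ddq ddY).B1 ≤ y * (xa w s + (hv w s y ddq ddY).A1
    + 2 * (hv w s y ddq ddY).KA) + (hv w s y ddq ddY).KB + (hv w s y ddq ddY).GB := by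
  have hτ : 0 < 1 - s * s := by nlinarith
  have hX : 0 < 1 - w * w := by nlinarith
  have h' : y ^ 2 * (1 - s * s) = 1 - w * w := by linarith
  have h1 := pos2 p1m1_ck (m := 0) hw hw1 hs hs1 le_rfl zero_le_one
  simp only [p1m1, lob, D0, D1, D2, D3, D4, D5, D6, D7, D8, D9, O2.m, PE.ev_add, PE.ev_mul,
    PE.ev_sub, PE.ev_c, PE.ev_v, PE.ev_pow, h_d0, h_d1, h_d2, h_d3, h_d4, h_d5, h_d6, h_d7, h_d8,
    h_d9] at h1
  have h2 := pos2 p1a2_ck (m := 0) hw hw1 hs hs1 le_rfl zero_le_one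
  simp only [p1a2, vb, V0, V1, V2, V3, V4, V5, O2.m, PE.ev_add, PE.ev_mul, PE.ev_sub, PE.ev_c,
    PE.ev_v, h_v0, h_v1, h_v2, h_v3, h_v4, h_v5] at h2
  have h3 := yel (U := (1 - s * s) * ((2 - w * w) * xY w s + w * w * xY w s + 2 * xdY w s))
    (V := (1 - s * s) * (2 * xa w s + (w * w * (xq w s - xY w s) + 2 * (xdq w s - xdY w s))
      + 2 * ((2 - w * w) * (xq w s - xY w s))))
    hy hτ hX h' (h1.trans_eq (by push_cast; ring))
    (mul_nonneg hτ.le (h2.trans_eq (by push_cast; ring)))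
  refine sub_nonneg.1 (nn_of (c := 2 * (1 - s * s)) (by linarith) h3 ?_)
  simp only [hv, Pv.A1, Pv.KA, Pv.B1, Pv.KB, Pv.GB]
  ring

theorem f_eta : 0 ≤ (hv w s y ddq ddY).E := by
  have hτ : 0 < 1 - s * s := by nlinarith
  have hX : 0 < 1 - w * w := by nlinarith
  have h' : y ^ 2 * (1 - s * s) = 1 - w * w := by linarith
  have h1 := pos2 eta1_ck (m := 0) hw hw1 hs hs1 le_rfl zero_le_one
  simp only [eta1, F0, PE.ev_v, h_f] at h1
  have h2 := pos2 eta2_ck (m := 0) hw hw1 hs hs1 le_rfl zero_le_one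
  simp only [eta2, V6, PE.ev_v, h_v6] at h2
  have h3 := yel (U := xY w s) (V := xq w s - xY w s) hy hτ hX h'
    (h1.trans_eq (by ring)) h2
  refine h3.trans_eq ?_
  simp only [hv, Pv.E]
  ring

theorem f_Y : (hv w s y ddq ddY).Y ≤ 0 := by
  have h1 := pos2 ynp_ck (m := 0) hw hw1 hs hs1 le_rfl zero_le_one
  simp only [ynp, V3, PE.ev_neg, PE.ev_v, h_v3] at h1
  change xY w s ≤ 0
  linarith

theorem ok2h : (hv w s y ddq ddY).OK2 (xhk w s) where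
  Y_np := f_Y hw hw1 hs hs1 hy h ddq ddY
  eta := f_eta hw hw1 hs hs1 hy h ddq ddY
  n1a := fun _ hm hm1 => f_n1a hw hw1 hs hs1 hy h ddq ddY hm hm1
  n1b := fun _ hm hm1 => f_n1b hw hw1 hs hs1 hy h ddq ddY hm hm1
  p2a := fun _ hm hm1 => f_p2a hw hw1 hs hs1 hy h ddq ddY hm hm1
  p2b := fun _ hm hm1 => f_p2b hw hw1 hs hs1 hy h ddq ddY hm hm1
  p3a := fun _ hm hm1 => f_p3a hw hw1 hs hs1 hy h ddq ddY hm hm1
  p3b := fun _ hm hm1 => f_p3b hw hw1 hs hs1 hy h ddq ddY hm hm1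
  p3b2 := fun _ hm hm1 => f_p3b2 hw hw1 hs hs1 hy h ddq ddY hm hm1
  p1a := abs_le'.2 ⟨f_p1p hw hw1 hs hs1 hy h ddq ddY, f_p1m hw hw1 hs hs1 hy h ddq ddY⟩
  p1b := f_p1b hw hw1 hs hs1 hy h ddq ddY

end fields

end O2

end

end Vale.Agent.Lib.P219.Ex
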