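import Vale.Agent.Lib.P219.K.Ex.Ok2Q

/-! # P219: kernel checks for the conditions `OK2`, part 1 -/

namespace Vale.Agent.Lib.P219.Ex

open Vale.Agent.Lib.P219.Bern

namespace O2

set_option maxRecDepth 100000 in
theorem n1a1_ck : (chkl 200 26 44 t2 L2 n1a1 && chkr 200 26 44 t1 L2 n1a1) = true := by
  decide +kernel

set_option maxRecDepth 100000 in
theorem n1a2_ck : (chkl 200 26 44 t1 L2 n1a2 && chkr 200 26 44 t1 L2 n1a2) = true := by
  decide +kernel

set_option maxRecDepth 100000 in
theorem n1b1_ck : (chkl 200 26 44 t1 L2 n1b1 && chkr 200 26 44 t1 L2 n1b1) = true := by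
  decide +kernel

set_option maxRecDepth 100000 in
theorem n1b2_ck : (chkl 200 26 44 t1 L2 n1b2 && chkr 200 26 44 t1 L2 n1b2) = true := by
  decide +kernel

set_option maxRecDepth 100000 in
theorem p2a1_ck : (chkl 200 26 44 t1 L2 p2a1 && chkr 200 26 44 t1 L2 p2a1) = true := by
  decide +kernel

set_option maxRecDepth 100000 in
theorem p2a2_ck : (chkl 200 26 44 t1 L2 p2a2 && chkr 200 26 44 t1 L2 p2a2) = true := by
  decide +kernel

end O2

end Vale.Agent.Lib.P219.Ex
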