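import Vale.Agent.Lib.P219.K.Ex.Ok2Q

/-! # P219: kernel checks for the conditions `OK2`, part 2 -/

namespace Vale.Agent.Lib.P219.Ex

open Vale.Agent.Lib.P219.Bern

namespace O2

set_option maxRecDepth 100000 in
theorem p2b1_ck : (chkl 200 26 44 t1 L2 p2b1 && chkr 200 26 44 t1 L2 p2b1) = true := by
  decide +kernel

set_option maxRecDepth 100000 in
theorem p2b2_ck : (chkl 200 26 44 t1 L2 p2b2 && chkr 200 26 44 t1 L2 p2b2) = true := by
  decide +kernel

set_option maxRecDepth 100000 in
theorem p3a1_ck : (chkl 200 26 44 t1 L2 p3a1 && chkr 200 26 44 t1 L2 p3a1) = true := by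
  decide +kernel

set_option maxRecDepth 100000 in
theorem p3a2_ck : (chkl 200 26 44 t1 L2 p3a2 && chkr 200 26 44 t1 L2 p3a2) = true := by
  decide +kernel

set_option maxRecDepth 100000 in
theorem p3b1_ck : (chkl 200 26 44 t1 L2 p3b1 && chkr 200 26 44 t1 L2 p3b1) = true := by
  decide +kernel

set_option maxRecDepth 100000 in
theorem p3b2_ck : (chkl 200 26 44 t1 L2 p3b2 && chkr 200 26 44 t1 L2 p3b2) = true := by
  decide +kernel

end O2

end Vale.Agent.Lib.P219.Ex
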