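import Vale.Agent.Lib.P219.K.Ex.Lit2

/-! # P219: polynomials of the conditions `OK2` of the explicit family -/

namespace Vale.Agent.Lib.P219.Ex

open Vale.Agent.Lib.P219.Bern

namespace O2

def D0 : PE := .v 3
def D1 : PE := .v 4
def D2 : PE := .v 5
def D3 : PE := .v 6
def D4 : PE := .v 7
def D5 : PE := .v 8
def D6 : PE := .v 9
def D7 : PE := .v 10
def D8 : PE := .v 11
def D9 : PE := .v 12
def V0 : PE := .v 13
def V1 : PE := .v 14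
def V2 : PE := .v 15
def V3 : PE := .v 16
def V4 : PE := .v 17
def V5 : PE := .v 18
def V6 : PE := .v 19
def F0 : PE := .v 20
def E0 : PE := .v 21
def E1 : PE := .v 22
def E2 : PE := .v 23
def E3 : PE := .v 24
def E4 : PE := .v 25
def E5 : PE := .v 26
def E6 : PE := .v 27
def E7 : PE := .v 28
def E8 : PE := .v 29

def lob (M p r : PE) : PE :=
  PE.c 2 * (M * ((PE.c 1 - p) * D0 + (PE.c 2 + p) * D1 + r * D2)) - PE.c 12 * (M * D3)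
  + PE.c 2 * (PE.c 8 * D4 + (PE.c 4 - PE.c 2 * (M * M) + PE.c 4 * p) * D5
    + (PE.c 8 + PE.c 2 * (M * M) - PE.c 4 * p) * D6 - PE.c 24 * (p * D7))

def vb (M p : PE) : PE :=
  PE.c 8 * V0 + (PE.c 4 - PE.c 2 * (M * M) + PE.c 4 * p) * V1
    + (PE.c 8 + PE.c 2 * (M * M) - PE.c 4 * p) * V2 - PE.c 24 * (p * V3)

def n1a1 : PE := lob (PE.c 2 * m) (m * m) (PE.c 1 - m)
  + (m * m) * (PE.c 4 * D2 + PE.c 8 * D9)
def n1a2 : PE := vb (PE.c 2 * m) (m * m) + PE.c 4 * (m * m * V5)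
def n1b1 : PE := PE.c 2 * lob (PE.c 1 + m) m (PE.c 0)
  + m * (PE.c 8 * D2 + PE.c 16 * D9) + (PE.c 1 - m * m + (PE.c 1 - m) ^ 3) * D2
def n1b2 : PE := PE.c 2 * vb (PE.c 1 + m) m + PE.c 8 * (m * V5)
def p2a1 : PE := lob (PE.c 2 * m) (m * m) (PE.c 1 - m * m) + PE.c 16 * (m * m * D8)
def p2a2 : PE := vb (PE.c 2 * m) (m * m) + PE.c 8 * (m * m * V4)
def p2b1 : PE := PE.c 2 * lob (PE.c 1 + m) m (PE.c 0)
  + PE.c 2 * ((PE.c 1 + m) * (PE.c 1 - m * m) * D2) + PE.c 32 * (m * D8)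
def p2b2 : PE := PE.c 2 * vb (PE.c 1 + m) m + PE.c 16 * (m * V4)
def p3a1 : PE := lob m (PE.c 0) (PE.c 0) + PE.c 2 * D2
def p3a2 : PE := vb m (PE.c 0)
def p3b1 : PE := PE.c 6 * ((PE.c 1 - m) * D3) + (m * m + m - PE.c 1) * D0
  - (PE.c 1 + (PE.c 1 - m) ^ 2) * D1 + D2
  + PE.c 2 * (PE.c 4 * D4 + (PE.c 2 - m * m) * D5 + (PE.c 4 + m * m) * D6
    + PE.c 12 * (m * D7) - PE.c 4 * D8)
/-- upper end, divided by `τ` -/
def p3b2 : PE := PE.c 12 * ((PE.c 1 - m) * E3) + PE.c 2 * ((m * m + m - PE.c 1) * E0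
  - (PE.c 1 + (PE.c 1 - m) ^ 2) * E1 + E2)
  + (PE.c 4 * E4 + (PE.c 2 - m * m) * E5 + (PE.c 4 + m * m) * E6
    + PE.c 12 * (m * E7) - PE.c 4 * E8)
def p3c1 : PE := p3b1 + m * (D1 - D0) + PE.c 2 * (D6 - D5)
def p3c2 : PE := PE.c 4 * V0 + (PE.c 2 - m * m) * V1 + (PE.c 4 + m * m) * V2
    + PE.c 12 * (m * V3) - PE.c 4 * V4 + (V2 - V1)
def p1p1 : PE := D1 + D2 - D0 + PE.c 2 * (PE.c 2 * D4 + D5 + PE.c 2 * D6)
def p1m1 : PE := D1 + D2 + D0 + PE.c 2 * (PE.c 2 * D4 + D5 + PE.c 2 * D6)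
def p1a2 : PE := PE.c 2 * V0 + V1 + PE.c 2 * V2
def p1b1 : PE := PE.c 3 * D1 + PE.c 2 * (PE.c 2 * D4 + PE.c 3 * D6)
def p1b2 : PE := PE.c 2 * V0 + PE.c 3 * V2
def eta1 : PE := F0
def eta2 : PE := V6
def ynp : PE := - V3

def t1 : T3 := .base .leaf
def t2 : T3 := .base (.n1 .leaf .leaf)

end O2

/-- positivity on the whole square from the two charts -/
theorem pos2 {K a b K' a' b' : ℕ} {t t' : T3} {L : List P2} {e : PE}
    (h : (chkl K a b t L e && chkr K' a' b' t' L e) = true)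
    {w s m : ℝ} (hw : 0 < w) (hw1 : w < 1) (hs : 0 < s) (hs1 : s < 1) (hm : 0 ≤ m) (hm1 : m ≤ 1) :
    0 ≤ e.ev (env L w s m) := by
  rw [Bool.and_eq_true] at h
  rcases le_total s w with hsw | hsw
  · exact posl h.1 hw hw1.le hs.le hsw hm hm1
  · exact posr h.2 hs hs1.le hw.le hsw hm hm1

end Vale.Agent.Lib.P219.Ex
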