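import Vale.Agent.Lib.P219.K.Ex.Scale
import Vale.Agent.Lib.P219.K.Ex.Fun
import Vale.Agent.Lib.P219.K.Ex.Ok2C1
import Vale.Agent.Lib.P219.K.Ex.Ok2C2
import Vale.Agent.Lib.P219.K.Ex.Ok2C3

/-! # P219: the polynomials of the conditions `OK2` as real numbers -/

namespace Vale.Agent.Lib.P219.Ex

open Vale.Agent.Lib.P219.Bern

set_option linter.unusedSimpArgs false

noncomputable section

namespace O2

def xq (w s : ℝ) : ℝ := PE.ev (env L0 w s 0) O2.q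
def xdq (w s : ℝ) : ℝ := PE.ev (env L0 w s 0) O2.dq
def xY (w s : ℝ) : ℝ := PE.ev (env L0 w s 0) O2.Y
def xdY (w s : ℝ) : ℝ := PE.ev (env L0 w s 0) O2.dY
def xa (w s : ℝ) : ℝ := PE.ev (env L0 w s 0) O2.a
def xhk (w s : ℝ) : ℝ := PE.ev (env L0 w s 0) O2.hk

theorem xq_eq (w s : ℝ) : xq w s = 100 * ((s + w) ^ 2 * ((1 - s * s) * ev2 w s nq0)) := by
  simp only [xq, O2.q, O2.u, O2.T, O2.w, O2.s, PE.ev_mul, PE.ev_add, PE.ev_sub, PE.ev_c, PE.ev_v,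
    PE.ev_pow]
  push_cast
  rfl
theorem xdq_eq (w s : ℝ) : xdq w s = 50 * ((s + w) * ((1 - s * s) * ev2 w s nq1)) := by
  simp only [xdq, O2.dq, O2.u, O2.T, O2.w, O2.s, PE.ev_mul, PE.ev_add, PE.ev_sub, PE.ev_c,
    PE.ev_v, PE.ev_pow]
  push_cast
  rfl
theorem xY_eq (w s : ℝ) : xY w s = 100 * ((s + w) * ((1 - s * s) * ev2 w s nY0)) := by
  simp only [xY, O2.Y, O2.u, O2.T, O2.w, O2.s, PE.ev_mul, PE.ev_add, PE.ev_sub, PE.ev_c, PE.ev_v,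
    PE.ev_pow]
  push_cast
  rfl
theorem xdY_eq (w s : ℝ) : xdY w s = 50 * ((1 - s * s) * ev2 w s nY1) := by
  simp only [xdY, O2.dY, O2.u, O2.T, O2.w, O2.s, PE.ev_mul, PE.ev_add, PE.ev_sub, PE.ev_c,
    PE.ev_v, PE.ev_pow]
  push_cast
  rfl
theorem xa_eq (w s : ℝ) : xa w s = 99 * ((s + w) ^ 7 * ((1 + w) * ev2 w s nks)) := by
  simp only [xa, O2.a, O2.u, O2.T, O2.w, O2.s, PE.ev_mul, PE.ev_add, PE.ev_sub, PE.ev_c, PE.ev_v,
    PE.ev_pow]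
  push_cast
  rfl
theorem xhk_eq (w s : ℝ) :
    xhk w s = 25 * ((s + w) ^ 8 * ((1 + w) * ((1 - s * s) * ev2 w s nk1))) := by
  simp only [xhk, O2.hk, O2.u, O2.T, O2.w, O2.s, PE.ev_mul, PE.ev_add, PE.ev_sub, PE.ev_c,
    PE.ev_v, PE.ev_pow]
  push_cast
  rfl

theorem e_w (w s : ℝ) : PE.ev (env L0 w s 0) O2.w = w := rfl
theorem e_s (w s : ℝ) : PE.ev (env L0 w s 0) O2.s = s := rfl
theorem e_T (w s : ℝ) : PE.ev (env L0 w s 0) O2.T = 1 - s * s := by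
  simp only [O2.T, PE.ev_sub, PE.ev_mul, PE.ev_c, e_s]
  push_cast
  rfl
theorem e_X (w s : ℝ) : PE.ev (env L0 w s 0) O2.X = 1 - w * w := by
  simp only [O2.X, PE.ev_sub, PE.ev_mul, PE.ev_c, e_w]
  push_cast
  rfl
theorem e_Y (w s : ℝ) : PE.ev (env L0 w s 0) O2.Y = xY w s := rfl
theorem e_a (w s : ℝ) : PE.ev (env L0 w s 0) O2.a = xa w s := rfl
theorem e_hk (w s : ℝ) : PE.ev (env L0 w s 0) O2.hk = xhk w s := rfl
theorem e_G (w s : ℝ) : PE.ev (env L0 w s 0) O2.G = xq w s - xY w s := by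
  simp only [O2.G, PE.ev_sub, xq, xY]
theorem e_A1 (w s : ℝ) : PE.ev (env L0 w s 0) O2.A1
    = w * w * (xq w s - xY w s) + 2 * (xdq w s - xdY w s) := by
  simp only [O2.A1, PE.ev_add, PE.ev_mul, PE.ev_sub, PE.ev_c, e_G, e_w, xdq, xdY]
  push_cast
  rfl
theorem e_KA (w s : ℝ) : PE.ev (env L0 w s 0) O2.KA = (2 - w * w) * (xq w s - xY w s) := by
  simp only [O2.KA, PE.ev_mul, PE.ev_sub, PE.ev_c, e_G, e_w]
  push_cast
  rfl
theorem e_B1 (w s : ℝ) : PE.ev (env L0 w s 0) O2.B1 = 2 * xdY w s := by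
  simp only [O2.B1, PE.ev_mul, PE.ev_c, xdY]
  push_cast
  rfl
theorem e_KB (w s : ℝ) : PE.ev (env L0 w s 0) O2.KB = (2 - w * w) * xY w s := by
  simp only [O2.KB, PE.ev_mul, PE.ev_sub, PE.ev_c, e_w, xY]
  push_cast
  rfl
theorem e_GB (w s : ℝ) : PE.ev (env L0 w s 0) O2.GB = w * w * xY w s := by
  simp only [O2.GB, PE.ev_mul, e_w, xY]

theorem h_d0 (w s m : ℝ) : env L2 w s m 3
    = ((1 - w * w) + (1 - s * s)) * ((1 - s * s) * (2 * xdY w s)) := by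
  change ev2 w s d0 = _
  rw [lit_ev d0_z]
  simp only [PE.ev_mul, PE.ev_add, PE.ev_c, e_T, e_X, e_G, e_A1, e_KA, e_B1, e_KB, e_GB, e_w, e_Y,
    e_a, e_hk, Int.cast_ofNat]

theorem h_d1 (w s m : ℝ) : env L2 w s m 4
    = ((1 - w * w) + (1 - s * s)) * ((1 - s * s) * ((2 - w * w) * xY w s)) := by
  change ev2 w s d1 = _
  rw [lit_ev d1_z]
  simp only [PE.ev_mul, PE.ev_add, PE.ev_c, e_T, e_X, e_G, e_A1, e_KA, e_B1, e_KB, e_GB, e_w, e_Y,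
    e_a, e_hk, Int.cast_ofNat]

theorem h_d2 (w s m : ℝ) : env L2 w s m 5
    = ((1 - w * w) + (1 - s * s)) * ((1 - s * s) * (w * w * xY w s)) := by
  change ev2 w s d2 = _
  rw [lit_ev d2_z]
  simp only [PE.ev_mul, PE.ev_add, PE.ev_c, e_T, e_X, e_G, e_A1, e_KA, e_B1, e_KB, e_GB, e_w, e_Y,
    e_a, e_hk, Int.cast_ofNat]

theorem h_d3 (w s m : ℝ) : env L2 w s m 6
    = ((1 - w * w) + (1 - s * s)) * ((1 - w * w) * (xq w s - xY w s)) := by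
  change ev2 w s d3 = _
  rw [lit_ev d3_z]
  simp only [PE.ev_mul, PE.ev_add, PE.ev_c, e_T, e_X, e_G, e_A1, e_KA, e_B1, e_KB, e_GB, e_w, e_Y,
    e_a, e_hk, Int.cast_ofNat]

theorem h_d4 (w s m : ℝ) : env L2 w s m 7
    = (1 - w * w) * ((1 - s * s) * xa w s) := by
  change ev2 w s d4 = _
  rw [lit_ev d4_z]
  simp only [PE.ev_mul, PE.ev_add, PE.ev_c, e_T, e_X, e_G, e_A1, e_KA, e_B1, e_KB, e_GB, e_w, e_Y,
    e_a, e_hk, Int.cast_ofNat]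

theorem h_d5 (w s m : ℝ) : env L2 w s m 8
    = (1 - w * w) * ((1 - s * s) * (w * w * (xq w s - xY w s) + 2 * (xdq w s - xdY w s))) := by
  change ev2 w s d5 = _
  rw [lit_ev d5_z]
  simp only [PE.ev_mul, PE.ev_add, PE.ev_c, e_T, e_X, e_G, e_A1, e_KA, e_B1, e_KB, e_GB, e_w, e_Y,
    e_a, e_hk, Int.cast_ofNat]

theorem h_d6 (w s m : ℝ) : env L2 w s m 9
    = (1 - w * w) * ((1 - s * s) * ((2 - w * w) * (xq w s - xY w s))) := by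
  change ev2 w s d6 = _
  rw [lit_ev d6_z]
  simp only [PE.ev_mul, PE.ev_add, PE.ev_c, e_T, e_X, e_G, e_A1, e_KA, e_B1, e_KB, e_GB, e_w, e_Y,
    e_a, e_hk, Int.cast_ofNat]

theorem h_d7 (w s m : ℝ) : env L2 w s m 10
    = (1 - w * w) * ((1 - s * s) * xY w s) := by
  change ev2 w s d7 = _
  rw [lit_ev d7_z]
  simp only [PE.ev_mul, PE.ev_add, PE.ev_c, e_T, e_X, e_G, e_A1, e_KA, e_B1, e_KB, e_GB, e_w, e_Y,
    e_a, e_hk, Int.cast_ofNat]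

theorem h_d8 (w s m : ℝ) : env L2 w s m 11
    = (1 - w * w) * ((1 - s * s) * xhk w s) := by
  change ev2 w s d8 = _
  rw [lit_ev d8_z]
  simp only [PE.ev_mul, PE.ev_add, PE.ev_c, e_T, e_X, e_G, e_A1, e_KA, e_B1, e_KB, e_GB, e_w, e_Y,
    e_a, e_hk, Int.cast_ofNat]

theorem h_d9 (w s m : ℝ) : env L2 w s m 12
    = (1 - w * w) * ((1 - s * s) * (w * w * (xq w s - xY w s))) := by
  change ev2 w s d9 = _
  rw [lit_ev d9_z]
  simp only [PE.ev_mul, PE.ev_add, PE.ev_c, e_T, e_X, e_G, e_A1, e_KA, e_B1, e_KB, e_GB, e_w, e_Y,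
    e_a, e_hk, Int.cast_ofNat]

theorem h_v0 (w s m : ℝ) : env L2 w s m 13
    = xa w s := by
  change ev2 w s v0 = _
  rw [lit_ev v0_z]
  simp only [PE.ev_mul, PE.ev_add, PE.ev_c, e_T, e_X, e_G, e_A1, e_KA, e_B1, e_KB, e_GB, e_w, e_Y,
    e_a, e_hk, Int.cast_ofNat]

theorem h_v1 (w s m : ℝ) : env L2 w s m 14
    = w * w * (xq w s - xY w s) + 2 * (xdq w s - xdY w s) := by
  change ev2 w s v1 = _
  rw [lit_ev v1_z]
  simp only [PE.ev_mul, PE.ev_add, PE.ev_c, e_T, e_X, e_G, e_A1, e_KA, e_B1, e_KB, e_GB, e_w, e_Y,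
    e_a, e_hk, Int.cast_ofNat]

theorem h_v2 (w s m : ℝ) : env L2 w s m 15
    = (2 - w * w) * (xq w s - xY w s) := by
  change ev2 w s v2 = _
  rw [lit_ev v2_z]
  simp only [PE.ev_mul, PE.ev_add, PE.ev_c, e_T, e_X, e_G, e_A1, e_KA, e_B1, e_KB, e_GB, e_w, e_Y,
    e_a, e_hk, Int.cast_ofNat]

theorem h_v3 (w s m : ℝ) : env L2 w s m 16
    = xY w s := by
  change ev2 w s v3 = _
  rw [lit_ev v3_z]
  simp only [PE.ev_mul, PE.ev_add, PE.ev_c, e_T, e_X, e_G, e_A1, e_KA, e_B1, e_KB, e_GB, e_w, e_Y,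
    e_a, e_hk, Int.cast_ofNat]

theorem h_v4 (w s m : ℝ) : env L2 w s m 17
    = xhk w s := by
  change ev2 w s v4 = _
  rw [lit_ev v4_z]
  simp only [PE.ev_mul, PE.ev_add, PE.ev_c, e_T, e_X, e_G, e_A1, e_KA, e_B1, e_KB, e_GB, e_w, e_Y,
    e_a, e_hk, Int.cast_ofNat]

theorem h_v5 (w s m : ℝ) : env L2 w s m 18
    = w * w * (xq w s - xY w s) := by
  change ev2 w s v5 = _
  rw [lit_ev v5_z]
  simp only [PE.ev_mul, PE.ev_add, PE.ev_c, e_T, e_X, e_G, e_A1, e_KA, e_B1, e_KB, e_GB, e_w, e_Y,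
    e_a, e_hk, Int.cast_ofNat]

theorem h_v6 (w s m : ℝ) : env L2 w s m 19
    = xq w s - xY w s := by
  change ev2 w s v6 = _
  rw [lit_ev v6_z]
  simp only [PE.ev_mul, PE.ev_add, PE.ev_c, e_T, e_X, e_G, e_A1, e_KA, e_B1, e_KB, e_GB, e_w, e_Y,
    e_a, e_hk, Int.cast_ofNat]

theorem h_f (w s m : ℝ) : env L2 w s m 20
    = ((1 - w * w) + (1 - s * s)) * xY w s + 2 * ((1 - w * w) * (xq w s - xY w s)) := by
  change ev2 w s f = _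
  rw [lit_ev f_z]
  simp only [PE.ev_mul, PE.ev_add, PE.ev_c, e_T, e_X, e_G, e_A1, e_KA, e_B1, e_KB, e_GB, e_w, e_Y,
    e_a, e_hk, Int.cast_ofNat]

theorem h_e0 (w s m : ℝ) : env L2 w s m 21
    = (1 - s * s) * (2 * xdY w s) := by
  change ev2 w s e0 = _
  rw [lit_ev e0_z]
  simp only [PE.ev_mul, PE.ev_add, PE.ev_c, e_T, e_X, e_G, e_A1, e_KA, e_B1, e_KB, e_GB, e_w, e_Y,
    e_a, e_hk, Int.cast_ofNat]

theorem h_e1 (w s m : ℝ) : env L2 w s m 22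
    = (1 - s * s) * ((2 - w * w) * xY w s) := by
  change ev2 w s e1 = _
  rw [lit_ev e1_z]
  simp only [PE.ev_mul, PE.ev_add, PE.ev_c, e_T, e_X, e_G, e_A1, e_KA, e_B1, e_KB, e_GB, e_w, e_Y,
    e_a, e_hk, Int.cast_ofNat]

theorem h_e2 (w s m : ℝ) : env L2 w s m 23
    = (1 - s * s) * (w * w * xY w s) := by
  change ev2 w s e2 = _
  rw [lit_ev e2_z]
  simp only [PE.ev_mul, PE.ev_add, PE.ev_c, e_T, e_X, e_G, e_A1, e_KA, e_B1, e_KB, e_GB, e_w, e_Y,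
    e_a, e_hk, Int.cast_ofNat]

theorem h_e3 (w s m : ℝ) : env L2 w s m 24
    = (1 - w * w) * (xq w s - xY w s) := by
  change ev2 w s e3 = _
  rw [lit_ev e3_z]
  simp only [PE.ev_mul, PE.ev_add, PE.ev_c, e_T, e_X, e_G, e_A1, e_KA, e_B1, e_KB, e_GB, e_w, e_Y,
    e_a, e_hk, Int.cast_ofNat]

theorem h_e4 (w s m : ℝ) : env L2 w s m 25
    = ((1 - w * w) + (1 - s * s)) * xa w s := by
  change ev2 w s e4 = _
  rw [lit_ev e4_z]
  simp only [PE.ev_mul, PE.ev_add, PE.ev_c, e_T, e_X, e_G, e_A1, e_KA, e_B1, e_KB, e_GB, e_w, e_Y,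
    e_a, e_hk, Int.cast_ofNat]

theorem h_e5 (w s m : ℝ) : env L2 w s m 26
    = ((1 - w * w) + (1 - s * s)) * (w * w * (xq w s - xY w s) + 2 * (xdq w s - xdY w s)) := by
  change ev2 w s e5 = _
  rw [lit_ev e5_z]
  simp only [PE.ev_mul, PE.ev_add, PE.ev_c, e_T, e_X, e_G, e_A1, e_KA, e_B1, e_KB, e_GB, e_w, e_Y,
    e_a, e_hk, Int.cast_ofNat]

theorem h_e6 (w s m : ℝ) : env L2 w s m 27
    = ((1 - w * w) + (1 - s * s)) * ((2 - w * w) * (xq w s - xY w s)) := by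
  change ev2 w s e6 = _
  rw [lit_ev e6_z]
  simp only [PE.ev_mul, PE.ev_add, PE.ev_c, e_T, e_X, e_G, e_A1, e_KA, e_B1, e_KB, e_GB, e_w, e_Y,
    e_a, e_hk, Int.cast_ofNat]

theorem h_e7 (w s m : ℝ) : env L2 w s m 28
    = ((1 - w * w) + (1 - s * s)) * xY w s := by
  change ev2 w s e7 = _
  rw [lit_ev e7_z]
  simp only [PE.ev_mul, PE.ev_add, PE.ev_c, e_T, e_X, e_G, e_A1, e_KA, e_B1, e_KB, e_GB, e_w, e_Y,
    e_a, e_hk, Int.cast_ofNat]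

theorem h_e8 (w s m : ℝ) : env L2 w s m 29
    = ((1 - w * w) + (1 - s * s)) * xhk w s := by
  change ev2 w s e8 = _
  rw [lit_ev e8_z]
  simp only [PE.ev_mul, PE.ev_add, PE.ev_c, e_T, e_X, e_G, e_A1, e_KA, e_B1, e_KB, e_GB, e_w, e_Y,
    e_a, e_hk, Int.cast_ofNat]

end O2

end

end Vale.Agent.Lib.P219.Ex
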