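import Mathlib.Algebra.Order.Star.Real
import Mathlib.Analysis.Calculus.Deriv.Add
import Mathlib.Analysis.Calculus.Deriv.Inv
import Mathlib.Analysis.Calculus.Deriv.Pow
import Mathlib.Analysis.InnerProductSpace.Basic
import Mathlib.Topology.Algebra.Module.ModuleTopology
import Vale.Agent.Lib.P219.Ce.Poly

/-! # P219: formal derivatives of kernel polynomials in two variables -/

namespace Vale.Agent.Lib.P219.Ex

open Vale.Agent.Lib.P219.Bern

noncomputable section

/-- polynomials in `w`, `s` -/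
abbrev P2 := List (List ℤ)

def R2 : Rg P2 := RI.poly.poly

theorem isEv2 (w s : ℝ) : IsEv R2 (ev2 w s) := (isEvI.poly s).poly w

/-- formal derivative in the outer variable -/
def dpl {α : Type} (R : Rg α) (l : List α) : List α :=
  List.rec (motive := fun _ => List α) []
    (fun _ l ih => zadd R.add l (R.zero :: ih)) l

theorem dpl_deriv {α : Type} {R : Rg α} {e : α → ℝ} (h : IsEv R e) (l : List α) (x : ℝ) :
    HasDerivAt (fun x => pev x (l.map e)) (pev x ((dpl R l).map e)) x := by
  induction l with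
  | nil => simpa [pev, dpl] using hasDerivAt_const x (0 : ℝ)
  | cons a l ih =>
    have e1 : pev x ((dpl R (a :: l)).map e) = pev x (l.map e) + x * pev x ((dpl R l).map e) := by
      change pev x ((zadd R.add l (R.zero :: dpl R l)).map e) = _
      rw [h.pev_add, List.map_cons, pev, h.zero]
      ring
    rw [e1]
    have h2 : HasDerivAt (fun x => e a + x * pev x (l.map e))
        (0 + (1 * pev x (l.map e) + x * pev x ((dpl R l).map e))) x :=
      (hasDerivAt_const x (e a)).add ((hasDerivAt_id x).mul ih)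
    have h3 : (0 : ℝ) + (1 * pev x (l.map e) + x * pev x ((dpl R l).map e))
        = pev x (l.map e) + x * pev x ((dpl R l).map e) := by ring
    rw [h3] at h2
    exact h2

/-- derivative in `w` -/
def dw (N : P2) : P2 := dpl RI.poly N

theorem dw_deriv (N : P2) (w s : ℝ) : HasDerivAt (fun w => ev2 w s N) (ev2 w s (dw N)) w :=
  dpl_deriv (isEvI.poly s) N w

def pW : P2 := [[], [1]]
def pS : P2 := [[0, 1]]

theorem ev_pW (w s : ℝ) : ev2 w s pW = w := by simp [ev2, ev1, pev, pW]
theorem ev_pS (w s : ℝ) : ev2 w s pS = s := by simp [ev2, ev1, pev, pS]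

/-- `1 - w^2` -/
def pX : P2 := [[1], [], [-1]]
/-- `s + w` -/
def pSW : P2 := [[0, 1], [1]]
/-- `1 - w` -/
def pM : P2 := [[1], [-1]]
/-- `1 + w` -/
def pU : P2 := [[1], [1]]
/-- `1 - s^2` -/
def pT : P2 := [[1, 0, -1]]

theorem ev_pX (w s : ℝ) : ev2 w s pX = 1 - w ^ 2 := by simp [ev2, ev1, pev, pX]; ring
theorem ev_pSW (w s : ℝ) : ev2 w s pSW = s + w := by simp [ev2, ev1, pev, pSW]
theorem ev_pM (w s : ℝ) : ev2 w s pM = 1 - w := by simp [ev2, ev1, pev, pM]; ring
theorem ev_pU (w s : ℝ) : ev2 w s pU = 1 + w := by simp [ev2, ev1, pev, pU]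
theorem ev_pT (w s : ℝ) : ev2 w s pT = 1 - s ^ 2 := by simp [ev2, ev1, pev, pT]; ring

/-- numerator of `- w (1 - w^2) / 2 * d/dw` of `N / (c (s+w)^j (1+w))`, over
`2 c (s+w)^(j+1) (1+w)` -/
def Dn (j : ℤ) (N : P2) : P2 :=
  R2.mul [[], [-1]] (R2.add (R2.mul (R2.mul pX pSW) (dw N))
    (R2.add (R2.mul (R2.mul (R2.ofI (-j)) pX) N) (R2.mul (R2.mul [[-1], [1]] pSW) N)))

theorem ev_Dn (j : ℤ) (N : P2) (w s : ℝ) : ev2 w s (Dn j N) =
    -w * ((1 - w ^ 2) * (s + w) * ev2 w s (dw N) - j * (1 - w ^ 2) * ev2 w s N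
      - (1 - w) * (s + w) * ev2 w s N) := by
  have h := isEv2 w s
  have h1 : ev2 w s [[], [-1]] = -w := by simp [ev2, ev1, pev]
  have h2 : ev2 w s [[-1], [1]] = -(1 - w) := by simp [ev2, ev1, pev]; ring
  simp only [Dn, h.add, h.mul, h.ofI, ev_pX, ev_pSW, h1, h2]
  push_cast
  ring

theorem hasDerivAt_frac (N : P2) (j : ℕ) (c w s : ℝ) (hc : c ≠ 0) (hs : 0 < s) (hw : 0 < w)
    (hw1 : w < 1) :
    HasDerivAt (fun w => ev2 w s N / (c * (s + w) ^ j * (1 + w)))
      (-(2 * (ev2 w s (Dn j N) / (2 * c * (s + w) ^ (j + 1) * (1 + w)))) / (w * (1 - w ^ 2))) w := by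
  have hsw : s + w ≠ 0 := by positivity
  have h1w : 1 + w ≠ 0 := by positivity
  have hm : (1 : ℝ) - w ^ 2 ≠ 0 := by nlinarith
  have d1 : HasDerivAt (fun w => c * (s + w) ^ j * (1 + w))
      (c * (j * (s + w) ^ (j - 1)) * (1 + w) + c * (s + w) ^ j) w := by
    have e1 : HasDerivAt (fun w : ℝ => s + w) 1 w := by
      simpa using (hasDerivAt_id w).const_add s
    have e2 := ((e1.pow j).const_mul c).mul ((hasDerivAt_id w).const_add 1)
    refine e2.congr_deriv ?_
    simp
  have hd : c * (s + w) ^ j * (1 + w) ≠ 0 := by positivity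
  refine ((dw_deriv N w s).div d1 hd).congr_deriv ?_
  rw [ev_Dn]
  rcases j with _ | j
  · simp only [Nat.cast_zero, Int.cast_zero, pow_zero]
    field_simp
    ring
  · simp only [Nat.add_sub_cancel]
    push_cast
    field_simp
    ring

/-- all coefficients vanish -/
def allz (P : P2) : Bool := P.all fun r => r.all fun z => decide (z = 0)

theorem ev2_of_allz {P : P2} (h : allz P = true) (w s : ℝ) : ev2 w s P = 0 := by
  have h1 : ∀ r ∈ P, ev1 s r = 0 := by
    intro r hr
    have h2 : ∀ z ∈ r, z = 0 := by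
      have := (List.all_eq_true.1 h) r hr
      intro z hz
      simpa using (List.all_eq_true.1 this) z hz
    clear hr
    induction r with
    | nil => simp [ev1, pev]
    | cons a r ih =>
      have ha := h2 a (by simp)
      have := ih (fun z hz => h2 z (by simp [hz]))
      simp only [ev1, List.map_cons, pev] at this ⊢
      rw [this, ha]
      simp
  clear h
  induction P with
  | nil => simp [ev2, pev]
  | cons a P ih =>
    have ha := h1 a (by simp)
    have := ih (fun z hz => h1 z (by simp [hz]))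
    simp only [ev2, List.map_cons, pev] at this ⊢
    rw [this, ha]
    simp

/-- difference -/
def sb2 (A B : P2) : P2 := R2.add A (R2.mul (R2.ofI (-1)) B)

theorem ev2_eq_of_allz {A B : P2} (h : allz (sb2 A B) = true) (w s : ℝ) :
    ev2 w s A = ev2 w s B := by
  have h1 := ev2_of_allz h w s
  have h2 := isEv2 w s
  rw [sb2, h2.add, h2.mul, h2.ofI] at h1
  push_cast at h1
  linarith

end

end Vale.Agent.Lib.P219.Ex
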