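import Vale.Agent.Lib.P219.K.Ex.Expr
import Vale.Agent.Lib.P219.K.Ex.Lit

/-! # P219: the explicit family, region `w ≤ s`: kernel checks -/

namespace Vale.Agent.Lib.P219.Ex

open Vale.Agent.Lib.P219.Bern

noncomputable section

/-- `k (s+w)^j N` -/
def scr (k : ℤ) (j : ℕ) (N : P2) : P2 := R2.mul (R2.ofI k) (R2.mul (pw R2 pSW j) N)

theorem ev_scr (k : ℤ) (j : ℕ) (N : P2) (w s : ℝ) :
    ev2 w s (scr k j N) = k * (s + w) ^ j * ev2 w s N := by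
  have h := isEv2 w s
  rw [scr, h.mul, h.mul, h.ofI, h.pw, ev_pSW]
  ring

/-- `k (s+w)^8 (1+w) N` -/
def scr8 (k : ℤ) (N : P2) : P2 := R2.mul (R2.ofI k) (R2.mul (pw R2 pSW 8) (R2.mul pU N))

theorem ev_scr8 (k : ℤ) (N : P2) (w s : ℝ) :
    ev2 w s (scr8 k N) = k * (s + w) ^ 8 * (1 + w) * ev2 w s N := by
  have h := isEv2 w s
  rw [scr8, h.mul, h.mul, h.mul, h.ofI, h.pw, ev_pSW, ev_pU]
  ring

/-- the atoms `q - Y, dq - dY, ddq - ddY, Y, dY, ddY, a, d`, scaled -/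
def Lr : List P2 := [sb2 (scr 4 3 nq0) (scr 4 2 nY0), sb2 (scr 2 2 nq1) (scr 2 1 nY1),
  sb2 (scr 1 1 nq2) nY2, scr 4 2 nY0, scr 2 1 nY1, nY2, scr8 4 nks, scr8 48 nk1]

namespace Rt

def W : PE := PE.v 0 ^ 2
def X : PE := 1 - PE.v 0 ^ 2
def T : PE := 1 - PE.v 1 ^ 2
def Z : PE := 2 - PE.v 0 ^ 2
def m : PE := PE.v 2
def E : PE := PE.v 3
def dE : PE := PE.v 4
def ddE : PE := PE.v 5
def Y : PE := PE.v 6
def dY : PE := PE.v 7
def ddY : PE := PE.v 8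
def a : PE := PE.v 9
def d : PE := PE.v 10

def cA1 : PE := 2 * (W * dE + 2 * ddE - W * (X * E)) + 3 * (Z * (W * E + 2 * dE))
def cKA : PE := 2 * (W * (X * E) + Z * dE) + 3 * (Z * (Z * E))
def cB1 : PE := 4 * ddY + (3 * Z - W) * (2 * dY)
def cKB : PE := 2 * (W * (X * Y) + Z * dY) + (3 * Z - W) * (Z * Y)
def cGB : PE := 2 * (W * dY - W * (X * Y)) + (3 * Z - W) * (W * Y)
def cE : PE := 6 * (W * E + 2 * dE) + 18 * (Z * E)
def cY : PE := 12 * dY + 18 * (Z * Y)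
def cA : PE := 6 * (Z * a)

def gV (k p1 p2 p3 : PE) : PE := k * cA + T * (p1 * cA1 + p2 * cKA - p3 * cY)
def gU (q1 q2 q3 q4 : PE) : PE := T * (q1 * cB1 + q2 * cKB + q3 * cGB) - X * (q4 * cE)

def V1 : PE := 2 * (X * gV 1 (1 - m ^ 2) (2 + m ^ 2) (m ^ 2)) - (T * (m ^ 2 * (PE.v 0 ^ 6 * d)))
def U1 : PE := gU (m * (1 - m ^ 2)) (m * (2 + m ^ 2)) (m * (1 - m ^ 2)) m
def W1 : PE := (X + T) * U1 + V1

def V2 : PE := 2 * (X * gV (2 * (3 + m)) ((3 + m) * (1 - m ^ 2)) ((3 + m) * (5 + m ^ 2))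
  (2 * (m * (3 + m)))) - (2 * (m * (3 + m))) * (T * (PE.v 0 ^ 6 * d))
def U2 : PE := gU ((1 + m) * ((3 + m) * (1 - m))) ((1 + m) * ((3 + m) * (2 + m)))
  ((1 + m) ^ 2 * (1 - m)) ((1 + m) * (3 + m))
def W2 : PE := (X + T) * U2 + V2

def V3 : PE := gV 4 (2 * (2 - m ^ 2)) (2 * (4 + m ^ 2)) 0
def U3 : PE := gU (2 * m) (4 * m) (m * (2 - m ^ 2)) (2 * m)
def W3 : PE := (X + T) * U3 + 2 * (X * V3)

/-- `V1` at `m = 1`, minus `s^7 (1-w)^2` -/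
def Vs : PE := 2 * (X * gV 1 0 3 1) - (T * (PE.v 0 ^ 6 * d)) - PE.v 1 ^ 7 * (1 - PE.v 0) ^ 2

end Rt

theorem chk1 : (chkr 96 20 28 (T3.base T.leaf) Lr Rt.V1
    && chkr 96 20 28 (T3.base T.leaf) Lr Rt.W1) = true := by decide +kernel

theorem chk2 : (chkr 96 20 28 (T3.base T.leaf) Lr Rt.V2
    && chkr 96 20 28 (T3.base T.leaf) Lr Rt.W2) = true := by decide +kernel

theorem chk3 : (chkr 96 18 26 (T3.base T.leaf) Lr Rt.V3
    && chkr 96 20 28 (T3.base T.leaf) Lr Rt.W3) = true := by decide +kernel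

theorem chks : chkr 96 20 28 (T3.base T.leaf) Lr Rt.Vs = true := by decide +kernel

end

end Vale.Agent.Lib.P219.Ex
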