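import Mathlib.Tactic.Positivity
import Vale.Agent.Lib.P219.K.Lin2.Defs2

/-! # P219: homogeneity of the conditions `OK2`, elimination of `y` -/

namespace Vale.Agent.Lib.P219.Ex

open Vale.Agent.Lib.P219.Lin

/-- scaled data -/
def sc (c : ℝ) (v : Pv) : Pv :=
  ⟨v.w, v.y, c * v.a, c * v.q, c * v.dq, c * v.ddq, c * v.Y, c * v.dY, c * v.ddY⟩

theorem sc_B (c : ℝ) (v : Pv) (m p ρ : ℝ) : (sc c v).B m p ρ = c * v.B m p ρ := by
  simp only [sc, Pv.B, Pv.A1, Pv.KA, Pv.B1, Pv.KB, Pv.GB]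
  ring

theorem sc_E (c : ℝ) (v : Pv) : (sc c v).E = c * v.E := by
  simp only [sc, Pv.E]
  ring

theorem sc_A1 (c : ℝ) (v : Pv) : (sc c v).A1 = c * v.A1 := by
  simp only [sc, Pv.A1]
  ring
theorem sc_KA (c : ℝ) (v : Pv) : (sc c v).KA = c * v.KA := by
  simp only [sc, Pv.KA]
  ring
theorem sc_B1 (c : ℝ) (v : Pv) : (sc c v).B1 = c * v.B1 := rfl
theorem sc_KB (c : ℝ) (v : Pv) : (sc c v).KB = c * v.KB := by
  simp only [sc, Pv.KB]
  ring
theorem sc_GB (c : ℝ) (v : Pv) : (sc c v).GB = c * v.GB := by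
  simp only [sc, Pv.GB]
  ring

theorem nn_of {c x y : ℝ} (hc : 0 < c) (h : 0 ≤ y) (e : y = c * x) : 0 ≤ x := by
  rw [e] at h
  exact (mul_nonneg_iff_of_pos_left hc).1 h

theorem OK2.of_sc {v : Pv} {hk c : ℝ} (hc : 0 < c) (h : (sc c v).OK2 (c * hk)) : v.OK2 hk where
  Y_np := by
    have := h.Y_np
    have h2 : 0 ≤ c * (-v.Y) := by
      have e : (sc c v).Y = c * v.Y := rfl
      rw [e] at this
      linarith
    have := (mul_nonneg_iff_of_pos_left hc).1 h2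
    linarith
  eta := nn_of hc h.eta (sc_E c v)
  n1a := fun m hm hm1 => nn_of hc (h.n1a m hm hm1) (by
    rw [sc_B, sc_E]; change _ + m ^ 2 * (v.w ^ 2 / 2 * _) = _; ring)
  n1b := fun m hm hm1 => nn_of hc (h.n1b m hm hm1) (by
    rw [sc_B, sc_E, sc_GB]; change _ + (2 * m - 1) * (v.w ^ 2 / 2 * _) + _ = _; ring)
  p2a := fun m hm hm1 => nn_of hc (h.p2a m hm hm1) (by
    rw [sc_B]; change _ + m ^ 2 * (c * hk * v.y) = _; ring)
  p2b := fun m hm hm1 => nn_of hc (h.p2b m hm hm1) (by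
    rw [sc_B]; change _ + (2 * m - 1) * (c * hk * v.y) = _; ring)
  p3a := fun m hm hm1 => nn_of hc (h.p3a m hm hm1) (by
    rw [sc_B, sc_GB]; ring)
  p3b := fun m hm hm1 => nn_of hc (h.p3b m hm hm1) (by
    rw [sc_A1, sc_KA, sc_B1, sc_KB, sc_GB]
    change v.y * (c * v.a + _ + _ + 3 / 2 * (v.y * (c * v.q - c * v.Y) * _)
      + 3 * (c * v.Y) * _ - _) + _ - _ + _ = _
    ring)
  p3b2 := fun m hm hm1 => nn_of hc (h.p3b2 m hm hm1) (by
    rw [sc_A1, sc_KA, sc_B1, sc_KB, sc_GB]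
    change v.y * (c * v.a + _ + _ + 3 / 2 * (v.y * (c * v.q - c * v.Y) * _)
      + 3 * (c * v.Y) * _ - _) + _ - _ + _ + v.y * _ / 2 + _ = _
    ring)
  p1a := by
    have := h.p1a
    rw [sc_A1, sc_KA, sc_B1, sc_KB, sc_GB, abs_mul, abs_of_pos hc] at this
    have e : (sc c v).y * ((sc c v).a + c * v.A1 + 2 * (c * v.KA)) + c * v.KB + c * v.GB
        = c * (v.y * (v.a + v.A1 + 2 * v.KA) + v.KB + v.GB) := by
      change v.y * (c * v.a + _ + _) + _ + _ = _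
      ring
    rw [e] at this
    exact le_of_mul_le_mul_left this hc
  p1b := nn_of hc h.p1b (by
    rw [sc_KA, sc_KB]
    change v.y * (c * v.a + _) + _ = _
    ring)

/-- `OK2` is monotone in `a` -/
theorem OK2.mono {w y a a' q dq ddq Y dY ddY hk : ℝ} (hy : 0 ≤ y) (ha : a ≤ a')
    (h : (Pv.mk w y a q dq ddq Y dY ddY).OK2 hk) : (Pv.mk w y a' q dq ddq Y dY ddY).OK2 hk := by
  have hya : y * a ≤ y * a' := mul_le_mul_of_nonneg_left ha hy
  have hB : ∀ m p ρ, (Pv.mk w y a q dq ddq Y dY ddY).B m p ρ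
      ≤ (Pv.mk w y a' q dq ddq Y dY ddY).B m p ρ := by
    intro m p ρ
    simp only [Pv.B, Pv.A1, Pv.KA, Pv.B1, Pv.KB, Pv.GB]
    linarith
  refine ⟨h.Y_np, h.eta, fun m hm hm1 => ?_, fun m hm hm1 => ?_, fun m hm hm1 => ?_,
    fun m hm hm1 => ?_, fun m hm hm1 => ?_, fun m hm hm1 => ?_, fun m hm hm1 => ?_, ?_, ?_⟩
  · exact (h.n1a m hm hm1).trans (add_le_add_left (hB _ _ _) _)
  · exact (h.n1b m hm hm1).trans (add_le_add_left (add_le_add_left (hB _ _ _) _) _)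
  · exact (h.p2a m hm hm1).trans (add_le_add_left (hB _ _ _) _)
  · exact (h.p2b m hm hm1).trans (add_le_add_left (hB _ _ _) _)
  · exact (h.p3a m hm hm1).trans (add_le_add_left (hB _ _ _) _)
  · have := h.p3b m hm hm1
    simp only [Pv.A1, Pv.KA, Pv.B1, Pv.KB, Pv.GB] at this ⊢
    linarith
  · have := h.p3b2 m hm hm1
    simp only [Pv.A1, Pv.KA, Pv.B1, Pv.KB, Pv.GB] at this ⊢
    linarith
  · have := h.p1a
    simp only [Pv.A1, Pv.KA, Pv.B1, Pv.KB, Pv.GB] at this ⊢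
    linarith
  · have := h.p1b
    simp only [Pv.A1, Pv.KA, Pv.B1, Pv.KB, Pv.GB] at this ⊢
    linarith

theorem yel {y τ X U V : ℝ} (hy : 0 < y) (hτ : 0 < τ) (hX : 0 < X) (h : y ^ 2 * τ = X)
    (hlo : 0 ≤ (X + τ) * U + 2 * X * V) (hV : 0 ≤ V) : 0 ≤ U + y * V := by
  have e : (X + τ) * (U + y * V) = ((X + τ) * U + 2 * X * V) + τ * y * (y - 1) ^ 2 * V := by
    rw [← h]; ring
  have h1 : 0 ≤ τ * y * (y - 1) ^ 2 * V := by positivity
  have h2 : 0 ≤ (X + τ) * (U + y * V) := by rw [e]; linarith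
  exact (mul_nonneg_iff_of_pos_left (by linarith)).1 h2

theorem yel2 {y τ X U V : ℝ} (hy : 0 < y) (hτ : 0 < τ) (hX : 0 < X) (h : y ^ 2 * τ = X)
    (hlo : 0 ≤ (X + τ) * U + 2 * X * V) (hhi : 0 ≤ 2 * τ * U + (X + τ) * V) :
    0 ≤ U + y * V := by
  rcases le_total 0 V with hV | hV
  · exact yel hy hτ hX h hlo hV
  · have e : (2 * τ) * (U + y * V) = (2 * τ * U + (X + τ) * V) + τ * (y - 1) ^ 2 * (-V) := by
      rw [← h]; ring
    have h1 : 0 ≤ τ * (y - 1) ^ 2 * (-V) := by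
      have : 0 ≤ -V := by linarith
      positivity
    have h2 : 0 ≤ (2 * τ) * (U + y * V) := by rw [e]; linarith
    exact (mul_nonneg_iff_of_pos_left (by linarith)).1 h2

end Vale.Agent.Lib.P219.Ex
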